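import Vale.Agent.P167.H24.VPA
import Vale.Agent.P167.H635.Bil

/-!
# P167: the comparison `bil` of two boundary conditions, arbitrary exterior relation, `q ≤ 1`
-/

set_option autoImplicit false
set_option linter.unusedSectionVars false

namespace Vale.Agent.P167.H24

open Finset Vale.Agent.P167.H623 Vale.Agent.P167.H816

variable {X ι : Type*} [DecidableEq ι] (a b : ι → X) {w : ι → ℝ} {q : ℝ}

section zf

variable [DecidableEq X] (D : Finset ι) {Y : Finset X} (r : Setoid X)
  (hY : ∀ e ∈ D, a e ∈ Y ∧ b e ∈ Y)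

theorem GE_ZF (hw : ∀ e, 0 ≤ w e) (hq : 0 < q) (F : Finset ι → ℝ) :
    GE a b w q D r F * H661.ZS (yA a b D hY) (yB a b D hY) (fun e => w e) q
        (r.comap (Subtype.val : Y → X)) (fun _ => True) =
      H635.ZF (yA a b D hY) (yB a b D hY) (fun e => w e) q
        (r.comap (Subtype.val : Y → X)) (fun ω => F (gS D ω)) := by
  classical
  have h0 : zw a b w q D r hY ∅ ≠ 0 := by
    have h1 : (∅ : Finset ι).subtype (· ∈ D) = ∅ := rfl
    rw [zw, h1, prod_empty, one_mul]
    exact pow_ne_zero _ hq.ne'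
  have h1 := (zw_rec a b w q D r hY hq.ne').sum_div hq h0 F
  have h2 : H635.ZF (yA a b D hY) (yB a b D hY) (fun e => w e) q
      (r.comap (Subtype.val : Y → X)) (fun ω => F (gS D ω)) =
      ∑ S ∈ D.powerset, zw a b w q D r hY S * F S := by
    rw [sum_gS, H635.ZF]
    refine sum_congr rfl fun ω _ => ?_
    rw [zw, subtype_gS]
  have h3 : H661.ZS (yA a b D hY) (yB a b D hY) (fun e => w e) q
      (r.comap (Subtype.val : Y → X)) (fun _ => True) =
      ∑ S ∈ D.powerset, zw a b w q D r hY S := by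
    rw [sum_gS, H661.ZS, filter_true, powerset_univ]
    refine sum_congr rfl fun ω _ => ?_
    rw [zw, subtype_gS]
  rw [h2, h3, ← h1, div_mul_cancel₀]
  rw [← h3]
  exact (H661.ZS_pos (E := D) _ _ (w := fun e : D => w e) (fun e => hw e) hq _).ne'

end zf

theorem GE_nonneg {D : Finset ι} {r : Setoid X} (hw : ∀ e, 0 ≤ w e) (hq : 0 < q)
    {F : Finset ι → ℝ} (h : ∀ S ⊆ D, 0 ≤ F S) : 0 ≤ GE a b w q D r F := by
  rw [← GE_const (a := a) (b := b) (D := D) (r := r) hw hq 0]
  exact GE_mono hw hq h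

open Classical in
/-- **The comparison of `r` and `r` with the points of `W` identified.** -/
theorem bil_rel (hw : ∀ e, 0 < w e) (hq : 0 < q) (hq1 : q ≤ 1) (D : Finset ι) (r : Setoid X)
    (W : Set X) {V : Finset ι} (hVD : V ⊆ D) {F G : Finset ι → ℝ} (hF0 : ∀ S, 0 ≤ F S)
    (hG0 : ∀ S, 0 ≤ G S) :
    GE a b w q D (r ⊔ wir W)
        (fun S => F (S ∩ V) * (if Sep a b r (ends a b V : Set X) W S then 1 else 0)) *
      GE a b w q D r (fun S => G (S ∩ V)) ≤
    GE a b w q D r (fun S => F (S ∩ V)) * GE a b w q D (r ⊔ wir W) (fun S => G (S ∩ V)) := by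
  have hw0 : ∀ e, 0 ≤ w e := fun e => (hw e).le
  set K : Finset ι → ℝ := fun S => if Sep a b r (ends a b V : Set X) W S then 1 else 0 with hK
  have hK1 : ∀ S, K S ≤ 1 := fun S => by
    rw [hK]
    beta_reduce
    split_ifs
    · exact le_rfl
    · exact zero_le_one
  have triv : ∀ ρ : Setoid X, GE a b w q D ρ (fun S => F (S ∩ V) * K S) ≤
      GE a b w q D ρ (fun S => F (S ∩ V)) := fun ρ =>
    GE_mono hw0 hq fun S _ => mul_le_of_le_one_right (hF0 _) (hK1 S)
  have hEG : 0 ≤ GE a b w q D r (fun S => G (S ∩ V)) := GE_nonneg a b hw0 hq fun S _ => hG0 _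
  rcases V.eq_empty_or_nonempty with hV | hV
  · subst hV
    have h1 := triv (r ⊔ wir W)
    simp only [inter_empty] at h1 ⊢
    rw [GE_const hw0 hq] at h1
    rw [GE_const hw0 hq, GE_const hw0 hq, GE_const hw0 hq]
    exact mul_le_mul_of_nonneg_right h1 (hG0 _)
  set Y := ends a b D with hYdef
  have hY : ∀ e ∈ D, a e ∈ Y ∧ b e ∈ Y :=
    fun e he => ⟨fst_mem_ends a b D he, snd_mem_ends a b D he⟩
  set ρ := r.comap (Subtype.val : Y → X) with hρ
  set T' : Finset Y := univ.filter fun y => (y : X) ∈ ends a b V with hT'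
  set W' : Finset Y := univ.filter fun y => ∃ x ∈ W, r y x with hW'
  set E0 : Finset D := univ.filter fun e => (e : ι) ∈ V with hE0
  rcases W'.eq_empty_or_nonempty with hWe | hWn
  · have hno : ∀ y ∈ Y, ∀ x ∈ W, ¬ r y x := by
      intro y hy x hx h
      have : (⟨y, hy⟩ : Y) ∈ W' := by
        rw [hW', mem_filter]
        exact ⟨mem_univ _, x, hx, h⟩
      rw [hWe] at this
      exact notMem_empty _ this
    have hsame : ∀ f : Finset ι → ℝ, GE a b w q D (r ⊔ wir W) f = GE a b w q D r f := by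
      intro f
      refine GE_congr hq (fun x hx y hy => ?_) fun S _ => rfl
      rw [sup_wir_iff]
      constructor
      · rintro (h | ⟨⟨u, hu, h⟩, -⟩)
        · exact h
        · exact absurd h (hno x hx u hu)
      · exact Or.inl
    rw [hsame, hsame]
    exact mul_le_mul_of_nonneg_right (triv r) hEG
  · have hρW : (r ⊔ wir W).comap (Subtype.val : Y → X) = ρ ⊔ H661.blk W' := by
      ext x y
      have e1 : (ρ ⊔ H661.blk W') x y ↔ ρ x y ∨ (∃ z ∈ W', ρ x z) ∧ ∃ z ∈ W', ρ y z :=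
        H661.sup_blk_iff ρ W' x y
      have e2 : (r ⊔ wir W).comap (Subtype.val : Y → X) x y ↔
          r x y ∨ ((∃ u ∈ W, r x u) ∧ ∃ v ∈ W, r y v) := sup_wir_iff r W x y
      have e3 : ∀ x : Y, (∃ z ∈ W', ρ x z) ↔ ∃ u ∈ W, r x u := by
        intro x
        constructor
        · rintro ⟨z, hz, h⟩
          obtain ⟨u, hu, hu'⟩ := (mem_filter.1 hz).2
          exact ⟨u, hu, r.trans h hu'⟩
        · rintro ⟨u, hu, h⟩
          exact ⟨x, mem_filter.2 ⟨mem_univ _, u, hu, h⟩, r.refl _⟩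
      refine e2.trans (Iff.trans ?_ e1.symm)
      rw [e3, e3]
      exact Iff.rfl
    have hTn : T'.Nonempty := by
      obtain ⟨v, hv⟩ := hV
      refine ⟨⟨a v, (hY v (hVD hv)).1⟩, ?_⟩
      rw [hT', mem_filter]
      exact ⟨mem_univ _, fst_mem_ends a b V hv⟩
    have hE : ∀ e ∈ E0, yA a b D hY e ∈ T' ∧ yB a b D hY e ∈ T' := by
      intro e he
      rw [hE0, mem_filter] at he
      rw [hT', mem_filter, mem_filter]
      exact ⟨⟨mem_univ _, fst_mem_ends a b V he.2⟩, mem_univ _, snd_mem_ends a b V he.2⟩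
    have hgS : ∀ ω : Finset D, gS D (ω ∩ E0) = gS D ω ∩ V := by
      intro ω
      ext v
      rw [mem_inter, gS, gS, mem_map, mem_map]
      constructor
      · rintro ⟨e, he, rfl⟩
        rw [mem_inter, hE0, mem_filter] at he
        exact ⟨⟨e, he.1, rfl⟩, he.2.2⟩
      · rintro ⟨⟨e, he, rfl⟩, hv⟩
        refine ⟨e, ?_, rfl⟩
        rw [mem_inter, hE0, mem_filter]
        exact ⟨he, mem_univ _, hv⟩
    have main := H635.bil_graph (yA a b D hY) (yB a b D hY) (w := fun e => w e) (fun e => hw0 e)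
      hq hq1 ρ hWn hTn hE (f := fun S => F (gS D S)) (g := fun S => G (gS D S))
      (k := fun S => K (gS D S)) (fun _ => hF0 _) (fun _ => hG0 _) (fun _ => hK1 _) (by
        rintro ω ⟨x, hx, y, hy, hxy⟩
        rw [conf_y a b D r hY ω x y] at hxy
        obtain ⟨z, hz, hz'⟩ := (mem_filter.1 hy).2
        have h1 : ¬ Sep a b r (ends a b V : Set X) W (gS D ω) := fun h =>
          h x (mem_filter.1 hx).2 z hz ((con a b r _).trans hxy (le_con a b r _ hz'))
        have h2 : K (gS D ω) = 0 := if_neg h1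
        rw [h2])
    rw [← hρW] at main
    simp only [hgS] at main
    have g1 := GE_ZF a b D (r ⊔ wir W) hY hw0 hq (fun S => F (S ∩ V) * K S)
    have g2 := GE_ZF a b D r hY hw0 hq (fun S => G (S ∩ V))
    have g3 := GE_ZF a b D r hY hw0 hq (fun S => F (S ∩ V))
    have g4 := GE_ZF a b D (r ⊔ wir W) hY hw0 hq (fun S => G (S ∩ V))
    rw [← hρ] at g2 g3
    rw [← g1, ← g2, ← g3, ← g4] at main
    have p1 : 0 < H661.ZS (yA a b D hY) (yB a b D hY) (fun e => w e) q ρ (fun _ => True) :=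
      H661.ZS_pos (E := D) _ _ (w := fun e : D => w e) (fun e => hw0 e) hq ρ
    have p2 : 0 < H661.ZS (yA a b D hY) (yB a b D hY) (fun e => w e) q
        ((r ⊔ wir W).comap (Subtype.val : Y → X)) (fun _ => True) :=
      H661.ZS_pos (E := D) _ _ (w := fun e : D => w e) (fun e => hw0 e) hq _
    refine le_of_mul_le_mul_right ?_ (mul_pos p1 p2)
    linarith [main]

end Vale.Agent.P167.H24
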