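import Mathlib

/-!
# P167, rough channels in strips: arithmetic
-/

set_option autoImplicit false

namespace Vale.Agent.P167.H24

theorem exp_pow_bound {x : ℝ} (hx : 0 < x) : Real.exp (-x) * x ^ 5 ≤ 120 := by
  have h1 : x ^ 5 / 120 ≤ Real.exp x := by
    have := Real.pow_div_factorial_le_exp x hx.le 5
    simpa [Nat.factorial] using this
  have h2 : Real.exp (-x) * Real.exp x = 1 := by rw [← Real.exp_add]; simp
  have h3 : 0 < Real.exp (-x) := Real.exp_pos _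
  have h4 : Real.exp (-x) * (x ^ 5 / 120) ≤ 1 := by
    rw [← h2]
    exact mul_le_mul_of_nonneg_left h1 h3.le
  linarith

theorem one_sub_pow_le {c : ℝ} (hc1 : c ≤ 1) (m : ℕ) : (1 - c) ^ m ≤ Real.exp (-(c * m)) := by
  have h1 : 1 - c ≤ Real.exp (-c) := by
    have := Real.add_one_le_exp (-c)
    linarith
  calc (1 - c) ^ m ≤ Real.exp (-c) ^ m := pow_le_pow_left₀ (by linarith) h1 m
    _ = Real.exp (-(c * m)) := by
      rw [← Real.exp_nat_mul]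
      congr 1
      ring

theorem exp_three : Real.exp 3 ≤ 21 := by
  have h4 : Real.exp 3 = Real.exp 1 ^ 3 := by rw [← Real.exp_nat_mul]; norm_num
  have h5 := Real.exp_one_lt_d9
  have h6 := Real.exp_pos 1
  rw [h4]
  have h7 : Real.exp 1 ^ 3 ≤ 2.7182818286 ^ 3 := pow_le_pow_left₀ h6.le h5.le 3
  refine h7.trans ?_
  norm_num

theorem expo {c ε t t0 : ℝ} (hc : 0 < c) (hc1 : c ≤ 1) (hε : 0 < ε) (h0 : 0 < t0)
    (ht0 : 21 * 120 * 6 ^ 5 / (c ^ 5 * ε) ≤ t0) (ht : t0 < t) {m : ℕ}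
    (hm : ε * t / 6 - 3 ≤ m) : t0 ^ 2 * ε ^ 4 * (1 - c) ^ m * t ^ 2 ≤ 1 := by
  have htpos : 0 < t := h0.trans ht
  have h1 : (1 - c) ^ m ≤ Real.exp (-(c * m)) := one_sub_pow_le hc1 m
  have h2 : Real.exp (-(c * m)) ≤ Real.exp 3 * Real.exp (-(c * ε * t / 6)) := by
    rw [← Real.exp_add]
    apply Real.exp_le_exp.2
    have := mul_le_mul_of_nonneg_left hm hc.le
    nlinarith
  set x : ℝ := c * ε * t / 6 with hx
  have hxpos : 0 < x := by positivity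
  have h5 := exp_pow_bound hxpos
  have hexp : 0 < Real.exp (-x) := Real.exp_pos _
  have h6 : Real.exp (-x) * t ^ 5 ≤ 120 * 6 ^ 5 / (c ^ 5 * ε ^ 5) := by
    rw [le_div_iff₀ (by positivity)]
    have e8 : x ^ 5 = c ^ 5 * ε ^ 5 * t ^ 5 / 6 ^ 5 := by rw [hx]; ring
    rw [e8] at h5
    have e9 : Real.exp (-x) * (c ^ 5 * ε ^ 5 * t ^ 5 / 6 ^ 5) =
      Real.exp (-x) * t ^ 5 * (c ^ 5 * ε ^ 5) / 6 ^ 5 := by ring
    rw [e9, div_le_iff₀ (by positivity)] at h5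
    exact h5
  have h7 : (1 - c) ^ m ≤ 21 * Real.exp (-x) :=
    h1.trans (h2.trans (mul_le_mul_of_nonneg_right exp_three hexp.le))
  have h8 : t0 ^ 2 ≤ t ^ 2 := pow_le_pow_left₀ h0.le ht.le 2
  have h9 : 0 ≤ (1 - c) ^ m := pow_nonneg (by linarith) m
  have h10 : t0 ^ 2 * ε ^ 4 * (1 - c) ^ m * t ^ 2 ≤
      t ^ 2 * ε ^ 4 * (21 * Real.exp (-x)) * t ^ 2 := by
    gcongr
  refine h10.trans ?_
  have h11 : 21 * ε ^ 4 * (Real.exp (-x) * t ^ 5) ≤ 21 * ε ^ 4 * (120 * 6 ^ 5 / (c ^ 5 * ε ^ 5)) :=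
    mul_le_mul_of_nonneg_left h6 (by positivity)
  have e10 : 21 * ε ^ 4 * (120 * 6 ^ 5 / (c ^ 5 * ε ^ 5)) = 21 * 120 * 6 ^ 5 / (c ^ 5 * ε) := by
    field_simp
  rw [e10] at h11
  have h13 : 21 * ε ^ 4 * (Real.exp (-x) * t ^ 5) =
    t ^ 2 * ε ^ 4 * (21 * Real.exp (-x)) * t ^ 2 * t := by ring
  rw [h13] at h11
  by_contra hcon
  push Not at hcon
  have := mul_lt_mul_of_pos_right hcon htpos
  linarith

theorem arith1 {a ε w N S : ℝ} (hε : 0 < ε) (hε1 : ε ≤ 1) (hw : 0 < w) (hN : w ≤ N)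
    (ha : a = N / w ^ 2) (k39 : (36 / ε + 3 / ε) * a < 1) (hS0 : 0 < S)
    (hS1 : 2 * N / (ε * w) ≤ S) (hS2 : S ≤ 2 * N / (ε * w) + 1) :
    S < w ∧ 2 / ε ≤ S ∧ ε / (6 * a) ≤ w / (2 * S) ∧ 6 ≤ ε / (6 * a) ∧
      N / (ε * S ^ 2) ≤ w / (2 * S) := by
  have hN0 : 0 < N := lt_of_lt_of_le hw hN
  have ha0 : 0 < a := by rw [ha]; positivity
  have hNa : N = a * w ^ 2 := by rw [ha]; field_simp
  have haw : 1 ≤ a * w := by
    rw [ha]
    have : N / w ^ 2 * w = N / w := by field_simp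
    rw [this, le_div_iff₀ hw]
    linarith
  have h36 : 0 < 36 / ε * a := by positivity
  have h3 : 0 < 3 / ε * a := by positivity
  rw [add_mul] at k39
  have k3 : 3 / ε * a < 1 := by linarith
  have k36 : 36 / ε * a < 1 := by linarith
  have e1 : 2 * N / (ε * w) = 2 * a * w / ε := by
    rw [hNa]
    field_simp
  have hS3 : S ≤ 3 * a * w / ε := by
    have h2 : 1 ≤ a * w / ε := by
      rw [le_div_iff₀ hε]
      linarith
    rw [e1] at hS2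
    have e2 : 3 * a * w / ε = 2 * a * w / ε + a * w / ε := by ring
    rw [e2]
    linarith
  refine ⟨?_, ?_, ?_, ?_, ?_⟩
  · have e3 : 3 * a * w / ε = 3 / ε * a * w := by ring
    rw [e3] at hS3
    calc S ≤ 3 / ε * a * w := hS3
      _ < 1 * w := mul_lt_mul_of_pos_right k3 hw
      _ = w := one_mul _
  · refine le_trans ?_ hS1
    rw [div_le_div_iff₀ hε (by positivity)]
    nlinarith
  · rw [div_le_div_iff₀ (by positivity) (by positivity)]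
    have := mul_le_mul_of_nonneg_left hS3 (show (0 : ℝ) ≤ 2 * ε by positivity)
    have e4 : 2 * ε * (3 * a * w / ε) = w * (6 * a) := by field_simp; norm_num
    rw [e4] at this
    linarith
  · rw [le_div_iff₀ (by positivity)]
    have := mul_lt_mul_of_pos_left k36 hε
    have e5 : ε * (36 / ε * a) = 36 * a := by field_simp
    rw [e5, mul_one] at this
    linarith
  · rw [div_le_div_iff₀ (by positivity) (by positivity)]
    have h1 := mul_le_mul_of_nonneg_left hS1 (show (0 : ℝ) ≤ ε * w * S by positivity)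
    have e6 : ε * w * S * (2 * N / (ε * w)) = N * (2 * S) := by field_simp
    rw [e6] at h1
    nlinarith

/-- **The arithmetic of the induction.** -/
theorem arith {c ε : ℝ} (hc : 0 < c) (hc1 : c ≤ 1) (hε : 0 < ε) (hε1 : ε ≤ 1) :
    ∃ G : ℝ, 1 ≤ G ∧ ∀ N w : ℕ, 0 < w → w ≤ N → G * ((N : ℝ) / (w : ℝ) ^ 2) ^ 2 < 1 →
      ∀ S : ℕ, S = ⌊2 * (N : ℝ) / (ε * w)⌋₊ + 1 → S < w ∧ 2 / ε ≤ S ∧
        (3 : ℝ) ≤ (w : ℝ) / (2 * S) - 3 ∧ (N : ℝ) / (ε * (S : ℝ) ^ 2) ≤ (w : ℝ) / (2 * S) ∧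
        ∀ m : ℕ, (w : ℝ) / (2 * S) - 3 ≤ m →
          G ^ 2 * ε ^ 4 * (1 - c) ^ m ≤ G * ((N : ℝ) / (w : ℝ) ^ 2) ^ 2 := by
  -- the threshold
  obtain ⟨t0, hA, hB⟩ : ∃ t0 : ℝ, 21 * 120 * 6 ^ 5 / (c ^ 5 * ε) ≤ t0 ∧ 36 / ε + 3 / ε ≤ t0 :=
    ⟨_, le_max_left _ _, le_max_right _ _⟩
  have h39 : 0 < 36 / ε + 3 / ε := by positivity
  have ht0pos : 0 < t0 := h39.trans_le hB
  have ht1 : 1 ≤ t0 := by
    have h1 : (1 : ℝ) ≤ 3 / ε := by rw [le_div_iff₀ hε]; linarith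
    have h2 : 0 < 36 / ε := by positivity
    linarith
  refine ⟨t0 ^ 2, one_le_pow₀ ht1, fun N w hw hN hG S hS => ?_⟩
  have hwR : (0 : ℝ) < w := by exact_mod_cast hw
  have hNR : (w : ℝ) ≤ N := by exact_mod_cast hN
  have hN0 : (0 : ℝ) < N := lt_of_lt_of_le hwR hNR
  obtain ⟨a, ha⟩ : ∃ a : ℝ, a = (N : ℝ) / (w : ℝ) ^ 2 := ⟨_, rfl⟩
  rw [← ha] at hG ⊢
  have ha0 : 0 < a := by rw [ha]; positivity
  have hta : t0 * a < 1 := by
    have h1 : (t0 * a) ^ 2 < 1 := by rw [mul_pow]; exact hG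
    have h2 : 0 < t0 * a := by positivity
    by_contra hcon
    push Not at hcon
    nlinarith
  have k39 : (36 / ε + 3 / ε) * a < 1 :=
    lt_of_le_of_lt (mul_le_mul_of_nonneg_right hB ha0.le) hta
  have hx0 : 0 ≤ 2 * (N : ℝ) / (ε * w) := by positivity
  have hS1 : 2 * (N : ℝ) / (ε * w) ≤ S := by
    rw [hS]
    push_cast
    exact (Nat.lt_floor_add_one _).le
  have hS2 : (S : ℝ) ≤ 2 * (N : ℝ) / (ε * w) + 1 := by
    rw [hS]
    push_cast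
    linarith [Nat.floor_le hx0]
  have hSpos : (0 : ℝ) < S := by
    rw [hS]
    push_cast
    positivity
  obtain ⟨r1, r2, r3, r4, r5⟩ := arith1 hε hε1 hwR hNR ha k39 hSpos hS1 hS2
  refine ⟨by exact_mod_cast r1, r2, by linarith, r5, fun m hm => ?_⟩
  obtain ⟨t, ht⟩ : ∃ t : ℝ, t = 1 / a := ⟨_, rfl⟩
  have htpos : 0 < t := by rw [ht]; positivity
  have hat : a * t = 1 := by rw [ht]; field_simp
  have ht0t : t0 < t := by
    have := mul_lt_mul_of_pos_right hta htpos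
    rwa [mul_assoc, hat, mul_one, one_mul] at this
  have hm3 : ε * t / 6 - 3 ≤ m := by
    have e7 : ε * t / 6 = ε / (6 * a) := by rw [ht]; field_simp
    rw [e7]
    linarith
  have hgoal := expo hc hc1 hε ht0pos hA ht0t hm3
  have hat2 : a ^ 2 * t ^ 2 = 1 := by rw [← mul_pow, hat, one_pow]
  have h14 : t0 ^ 2 * ε ^ 4 * (1 - c) ^ m ≤ a ^ 2 := by
    have h15 : t0 ^ 2 * ε ^ 4 * (1 - c) ^ m * t ^ 2 ≤ a ^ 2 * t ^ 2 := by rw [hat2]; exact hgoal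
    exact le_of_mul_le_mul_right h15 (by positivity)
  have e11 : (t0 ^ 2) ^ 2 * ε ^ 4 * (1 - c) ^ m = t0 ^ 2 * (t0 ^ 2 * ε ^ 4 * (1 - c) ^ m) := by
    ring
  rw [e11]
  exact mul_le_mul_of_nonneg_left h14 (by positivity)

end Vale.Agent.P167.H24
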