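import Vale.Agent.P167.H24.ChDef

/-!
# P167, rough channels in strips: components
-/

set_option autoImplicit false

namespace Vale.Agent.P167.H24

open Finset Vale.Agent.P167.FK Vale.Agent.P167.H871 Vale.Agent.P167.H632 Vale.Agent.P167.H192.TA
open Vale.Agent.P167.N
open Relation (ReflTransGen)

variable {c : Bool} {K κ : Finset Pt} {y0 y1 z0 z1 : ℤ}

open Classical in
/-- The component of `v` in `K`. -/
noncomputable def comp (c : Bool) (K : Finset Pt) (v : Pt) : Finset Pt :=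
  K.filter fun w => Jd c ↑K v w

open Classical in
/-- The components of `K`. -/
noncomputable def comps (c : Bool) (K : Finset Pt) : Finset (Finset Pt) := K.image (comp c K)

theorem mem_comp {v w : Pt} : w ∈ comp c K v ↔ Jd c ↑K v w := by
  classical
  unfold comp
  rw [mem_filter]
  exact ⟨fun h => h.2, fun h => ⟨mem_coe.1 h.mem, h⟩⟩

theorem comp_sub (v : Pt) : comp c K v ⊆ K := fun _ h => mem_coe.1 (mem_comp.1 h).mem

theorem self_mem {v : Pt} (h : v ∈ K) : v ∈ comp c K v := mem_comp.2 (Jd.refl h)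

theorem comp_eq {v w : Pt} (h : w ∈ comp c K v) : comp c K w = comp c K v := by
  have h' := mem_comp.1 h
  ext z
  rw [mem_comp, mem_comp]
  exact ⟨fun k => h'.trans k, fun k => h'.symm.trans k⟩

theorem mem_comps {C : Finset Pt} : C ∈ comps c K ↔ ∃ v ∈ K, comp c K v = C := by
  unfold comps
  rw [mem_image]

theorem comps_sub {C : Finset Pt} (h : C ∈ comps c K) : C ⊆ K := by
  obtain ⟨v, -, rfl⟩ := mem_comps.1 h
  exact comp_sub v

theorem comps_disj {C C' : Finset Pt} (h : C ∈ comps c K) (h' : C' ∈ comps c K) (hne : C ≠ C') :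
    Disjoint C C' := by
  obtain ⟨v, -, rfl⟩ := mem_comps.1 h
  obtain ⟨v', -, rfl⟩ := mem_comps.1 h'
  rw [disjoint_left]
  intro w hw hw'
  exact hne ((comp_eq hw).symm.trans (comp_eq hw'))

theorem sum_card_comps : ∑ C ∈ comps c K, C.card ≤ K.card := by
  classical
  rw [← card_biUnion fun C hC C' hC' hne => comps_disj hC hC' hne]
  refine card_le_card ?_
  intro v hv
  rw [mem_biUnion] at hv
  obtain ⟨C, hC, hv⟩ := hv
  exact comps_sub hC hv

theorem sum_sq_comps : ∑ C ∈ comps c K, (C.card : ℝ) ^ 2 ≤ (K.card : ℝ) ^ 2 := by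
  have h1 : ∀ C ∈ comps c K, (C.card : ℝ) ^ 2 ≤ (K.card : ℝ) * C.card := by
    intro C hC
    have : (C.card : ℝ) ≤ K.card := by exact_mod_cast card_le_card (comps_sub hC)
    have h0 : (0 : ℝ) ≤ C.card := Nat.cast_nonneg _
    nlinarith
  have h2 : ∑ C ∈ comps c K, (C.card : ℝ) ≤ K.card := by
    exact_mod_cast sum_card_comps (c := c) (K := K)
  calc ∑ C ∈ comps c K, (C.card : ℝ) ^ 2 ≤ ∑ C ∈ comps c K, (K.card : ℝ) * C.card :=
        sum_le_sum h1
    _ = (K.card : ℝ) * ∑ C ∈ comps c K, (C.card : ℝ) := (mul_sum _ _ _).symm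
    _ ≤ (K.card : ℝ) * K.card := mul_le_mul_of_nonneg_left h2 (Nat.cast_nonneg _)
    _ = (K.card : ℝ) ^ 2 := by ring

/-! ### Walls in a part of the strip -/

/-- A wall square reaches, inside a part of the strip, the first or last row, or it stays there. -/
theorem jd_restrict {F : Set Pt} {v v' : Pt} (h : Jd c F v v') (hv : v ∈ Rw z0 z1) :
    ∃ v'', Jd c {z | z ∈ F ∧ z ∈ Rw z0 z1} v v'' ∧ (v''.2 = z0 ∨ v''.2 = z1 - 1 ∨ v'' = v') := by
  obtain ⟨h1, h2⟩ := h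
  induction h2 with
  | refl => exact ⟨v, Jd.refl ⟨h1, hv⟩, Or.inr (Or.inr rfl)⟩
  | @tail a b hab hb ih =>
    obtain ⟨w, k1, k2⟩ := ih
    rcases k2 with k2 | k2 | k2
    · exact ⟨w, k1, Or.inl k2⟩
    · exact ⟨w, k1, Or.inr (Or.inl k2)⟩
    · subst k2
      have hw := k1.mem.2
      have hc := hb.2.coord
      by_cases hbR : b ∈ Rw z0 z1
      · exact ⟨b, k1.tail ⟨hb.1, hbR⟩ hb.2, Or.inr (Or.inr rfl)⟩
      · refine ⟨w, k1, ?_⟩
        unfold Rw at hw hbR
        simp only [Set.mem_ofPred_eq] at hw hbR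
        omega

/-- Off the layer nothing changes. -/
theorem NoHole.sub (h : NoHole c κ y0 y1) (h0 : y0 ≤ z0) (h1 : z1 ≤ y1) {w : Pt}
    (hw : w ∈ Rw z0 z1) (hwκ : w ∉ κ) :
    ∃ v', Jd (!c) {z | z ∈ Rw z0 z1 ∧ z ∉ κ} w v' ∧ (v'.2 = z0 ∨ v'.2 = z1 - 1 ∨ Far κ v') := by
  have hw' : w ∈ Rw y0 y1 := by
    unfold Rw at hw ⊢
    simp only [Set.mem_ofPred_eq] at hw ⊢
    omega
  obtain ⟨v', k1, k2⟩ := h w hw' hwκ
  obtain ⟨v'', k3, k4⟩ := jd_restrict k1 hw
  refine ⟨v'', k3.mono (F' := {z | z ∈ Rw z0 z1 ∧ z ∉ κ}) fun z hz => ⟨hz.2, hz.1.2⟩, ?_⟩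
  rcases k4 with k4 | k4 | k4
  · exact Or.inl k4
  · exact Or.inr (Or.inl k4)
  · subst k4
    have hm := k3.mem.2
    unfold Rw at hm
    simp only [Set.mem_ofPred_eq] at hm
    rcases k2 with k2 | k2 | k2
    · left
      omega
    · right
      left
      omega
    · exact Or.inr (Or.inr k2)

theorem Far.mono {κ' : Finset Pt} (h : κ' ⊆ κ) {v : Pt} (hv : Far κ v) : Far κ' v := by
  rcases hv with hv | hv
  · exact Or.inl fun z hz => hv z (h hz)
  · exact Or.inr fun z hz => hv z (h hz)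

/-- **The components in a layer have no holes.** -/
theorem noHole_comp (h : NoHole c κ y0 y1) (h0 : y0 ≤ z0) (h1 : z1 ≤ y1)
    (hK : ∀ v, v ∈ K ↔ v ∈ κ ∧ v ∈ Rw z0 z1) {ρ : Finset Pt} (hρ : ρ ∈ comps c K) :
    NoHole c ρ z0 z1 := by
  obtain ⟨v0, hv0, rfl⟩ := mem_comps.1 hρ
  set ρ := comp c K v0 with hρd
  have hsub : ρ ⊆ κ := fun v hv => ((hK v).1 (comp_sub v0 hv)).1
  -- induction over the distance to the last row
  have key : ∀ n : ℕ, ∀ w : Pt, w ∈ Rw z0 z1 → w ∉ ρ → z1 - 1 - w.2 = n →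
      ∃ v', Jd (!c) {z | z ∈ Rw z0 z1 ∧ z ∉ ρ} w v' ∧ (v'.2 = z0 ∨ v'.2 = z1 - 1 ∨ Far ρ v') := by
    intro n
    induction n with
    | zero =>
      intro w hw hwρ hn
      refine ⟨w, Jd.refl ⟨hw, hwρ⟩, Or.inr (Or.inl ?_)⟩
      push_cast at hn
      omega
    | succ n ih =>
      intro w hw hwρ hn
      by_cases hwκ : w ∈ κ
      · have hwK : w ∈ K := (hK w).2 ⟨hwκ, hw⟩
        have hup : ((w.1, w.2 + 1) : Pt) ∈ Rw z0 z1 := by
          unfold Rw at hw ⊢
          simp only [Set.mem_ofPred_eq] at hw ⊢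
          push_cast at hn
          omega
        have hupρ : ((w.1, w.2 + 1) : Pt) ∉ ρ := by
          intro hcon
          apply hwρ
          rw [hρd, mem_comp] at hcon ⊢
          exact hcon.tail hwK (adj_up c w).symm
        obtain ⟨v', k1, k2⟩ := ih (w.1, w.2 + 1) hup hupρ (by push_cast at hn ⊢; omega)
        refine ⟨v', Jd.trans ?_ k1, k2⟩
        exact Jd.tail (Jd.refl ⟨hw, hwρ⟩) ⟨hup, hupρ⟩ (adj_up (!c) w)
      · obtain ⟨v', k1, k2⟩ := h.sub h0 h1 hw hwκ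
        refine ⟨v', k1.mono (F' := {z | z ∈ Rw z0 z1 ∧ z ∉ ρ})
          fun z hz => ⟨hz.1, fun hc => hz.2 (hsub hc)⟩, ?_⟩
        rcases k2 with k2 | k2 | k2
        · exact Or.inl k2
        · exact Or.inr (Or.inl k2)
        · exact Or.inr (Or.inr (k2.mono hsub))
  intro w hw hwρ
  have hpos : 0 ≤ z1 - 1 - w.2 := by
    unfold Rw at hw
    simp only [Set.mem_ofPred_eq] at hw
    omega
  exact key (z1 - 1 - w.2).toNat w hw hwρ (by rw [Int.toNat_of_nonneg hpos])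

end Vale.Agent.P167.H24
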