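import Vale.Agent.P167.N.NET.Rough

/-!
# P167, rough channels in strips: definitions

`CH`: the probability that a set `κ` of squares without holes in a strip of width `w` is crossed is at
most `G (|κ| / w²)²`, for every configuration outside.
-/

set_option autoImplicit false

namespace Vale.Agent.P167.H24

open Finset Vale.Agent.P167.FK Vale.Agent.P167.H871 Vale.Agent.P167.H632 Vale.Agent.P167.H192.TA
open Vale.Agent.P167.N
open Relation (ReflTransGen)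

/-- Squares with a common corner of the colour `c`. -/
def Adj (c : Bool) (v v' : Pt) : Prop := ∃ x, NET.Cor c v x ∧ NET.Cor c v' x

/-- Squares joined by squares of `F` with common corners of the colour `c`. -/
def Jd (c : Bool) (F : Set Pt) (v v' : Pt) : Prop :=
  v ∈ F ∧ ReflTransGen (fun a b => b ∈ F ∧ Adj c a b) v v'

/-- The rows `y0, …, y1 - 1`. -/
def Rw (y0 y1 : ℤ) : Set Pt := {v | y0 ≤ v.2 ∧ v.2 < y1}

/-- On the left or on the right of `κ`. -/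
def Far (κ : Finset Pt) (v : Pt) : Prop := (∀ z ∈ κ, z.1 < v.1) ∨ (∀ z ∈ κ, v.1 < z.1)

/-- Every square of the strip off `κ` is joined off `κ` to the first or last row, or far away. -/
def NoHole (c : Bool) (κ : Finset Pt) (y0 y1 : ℤ) : Prop :=
  ∀ v ∈ Rw y0 y1, v ∉ κ → ∃ v', Jd (!c) {z | z ∈ Rw y0 y1 ∧ z ∉ κ} v v' ∧
    (v'.2 = y0 ∨ v'.2 = y1 - 1 ∨ Far κ v')

/-- The sites of the colour `c` on a line. -/
def rw (c : Bool) (y : ℤ) : Set Pt := {x | x.2 = y ∧ (x.1 + x.2) % 2 = pr c}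

/-- **Crossing of channels in strips.** -/
def CH (Q : ℝ) : Prop := ∃ G : ℝ, 0 < G ∧ ∀ (c : Bool) (κ : Finset Pt) (y0 y1 : ℤ), y0 < y1 →
  (∀ v ∈ κ, v ∈ Rw y0 y1) → NoHole c κ y0 y1 → ∀ η, Good η →
    Pr Q κ η (NET.Jn c ↑κ (rw c y0) (rw c y1)) ≤
      G * ((κ.card : ℝ) / ((y1 - y0 : ℤ) : ℝ) ^ 2) ^ 2

theorem Adj.symm {c : Bool} {v v' : Pt} (h : Adj c v v') : Adj c v' v := by
  obtain ⟨x, h1, h2⟩ := h
  exact ⟨x, h2, h1⟩

theorem Adj.refl (c : Bool) (v : Pt) : Adj c v v := by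
  obtain ⟨x, hx⟩ := NET.exists_cor c v
  exact ⟨x, hx, hx⟩

theorem Jd.refl {c : Bool} {F : Set Pt} {v : Pt} (h : v ∈ F) : Jd c F v v := ⟨h, ReflTransGen.refl⟩

theorem Jd.mem {c : Bool} {F : Set Pt} {v v' : Pt} (h : Jd c F v v') : v' ∈ F := by
  obtain ⟨h1, h2⟩ := h
  rcases ReflTransGen.cases_tail h2 with h | ⟨w, -, h⟩
  · exact h ▸ h1
  · exact h.1

theorem Jd.trans {c : Bool} {F : Set Pt} {v v' v'' : Pt} (h : Jd c F v v') (h' : Jd c F v' v'') :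
    Jd c F v v'' := ⟨h.1, h.2.trans h'.2⟩

theorem Jd.tail {c : Bool} {F : Set Pt} {v v' v'' : Pt} (h : Jd c F v v') (h1 : v'' ∈ F)
    (h2 : Adj c v' v'') : Jd c F v v'' := ⟨h.1, h.2.tail ⟨h1, h2⟩⟩

theorem Jd.symm {c : Bool} {F : Set Pt} {v v' : Pt} (h : Jd c F v v') : Jd c F v' v := by
  obtain ⟨h1, h2⟩ := h
  induction h2 with
  | refl => exact ⟨h1, ReflTransGen.refl⟩
  | @tail a b hab hb ih =>
    exact Jd.trans ⟨hb.1, ReflTransGen.single ⟨Jd.mem ⟨h1, hab⟩, hb.2.symm⟩⟩ ih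

theorem Jd.mono {c : Bool} {F F' : Set Pt} (hF : F ⊆ F') {v v' : Pt} (h : Jd c F v v') :
    Jd c F' v v' := by
  refine ⟨hF h.1, ?_⟩
  have h2 := h.2
  clear h
  induction h2 with
  | refl => exact ReflTransGen.refl
  | tail _ hb ih => exact ih.tail ⟨hF hb.1, hb.2⟩

/-- Squares with a common side. -/
theorem adj_right (c : Bool) (v : Pt) : Adj c v (v.1 + 1, v.2) := by
  rcases Int.emod_two_eq (v.1 + v.2 + pr c) with h | h
  · refine ⟨(v.1 + 1, v.2 + 1), ?_, ?_⟩ <;> · unfold NET.Cor; have := pr_or c; dsimp only; omega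
  · refine ⟨(v.1 + 1, v.2), ?_, ?_⟩ <;> · unfold NET.Cor; have := pr_or c; dsimp only; omega

theorem adj_up (c : Bool) (v : Pt) : Adj c v (v.1, v.2 + 1) := by
  rcases Int.emod_two_eq (v.1 + v.2 + pr c) with h | h
  · refine ⟨(v.1 + 1, v.2 + 1), ?_, ?_⟩ <;> · unfold NET.Cor; have := pr_or c; dsimp only; omega
  · refine ⟨(v.1, v.2 + 1), ?_, ?_⟩ <;> · unfold NET.Cor; have := pr_or c; dsimp only; omega

/-- Adjacent squares have adjacent coordinates. -/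
theorem Adj.coord {c : Bool} {v v' : Pt} (h : Adj c v v') :
    v.1 - 1 ≤ v'.1 ∧ v'.1 ≤ v.1 + 1 ∧ v.2 - 1 ≤ v'.2 ∧ v'.2 ≤ v.2 + 1 := by
  obtain ⟨x, h1, h2⟩ := h
  unfold NET.Cor at h1 h2
  omega

end Vale.Agent.P167.H24
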