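import Vale.Agent.P167.H575.Ch
import Vale.Agent.P167.H366.TADef

/-!
# P167, rough channels in strips: the barrier, geometry

`barrier`: in a row with at most `r` squares of `κ` there is a ring whose squares off `κ` are on the
left or on the right of the crossings, both sides cross the ring, and a dual path in `κ` between them
blocks all the crossings of one class.
-/

set_option autoImplicit false

namespace Vale.Agent.P167.H24

open Finset Vale.Agent.P145.FB Vale.Agent.P167.FK Vale.Agent.P167.H871 Vale.Agent.P167.H632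
  Vale.Agent.P167.H192.TA Vale.Agent.P167.H262
open Vale.Agent.P167.N
open Relation (ReflTransGen)
open Vale.Agent.P167.H575 (Esc Rows lab_c row_c esc_of)
open Vale.Agent.P167.H366 (Rg Wl)

/-- A site which escapes is joined off `κ` to sites which are arbitrarily far. -/
theorem esc_far {κ : Set (ℤ × ℤ)} {p : ℤ × ℤ} (h : Esc κ p) (B : ℤ) :
    ∃ q, Pw κᶜ p q ∧ (q.1 ≤ -B ∨ B ≤ q.1) := by
  obtain ⟨q, h1, h2⟩ := h
  have hz : ∀ n : ℕ, ∃ x : ℤ × ℤ, Pw κᶜ q x ∧ (x.1 = q.1 + n ∨ x.1 = q.1 - n) := by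
    rcases h2 with h2 | h2
    · -- to the left
      intro n
      have : ∃ x : ℤ × ℤ, Pw κᶜ q x ∧ x.1 = q.1 - n ∧ (x.2 = q.2 ∨ x.2 = q.2 + 1) := by
        induction n with
        | zero => exact ⟨q, ReflTransGen.refl, by simp, Or.inl rfl⟩
        | succ n ih =>
          obtain ⟨x, hx1, hx2, hx3⟩ := ih
          have hsq : (x.1 - 1, q.2) ∈ κᶜ := fun h3 => by
            have := h2 _ h3 rfl
            simp only at this
            omega
          rcases hx3 with hx3 | hx3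
          · refine ⟨(x.1 - 1, q.2 + 1), hx1.tail ⟨Or.inr rfl, Or.inl (by simp only; omega), ?_⟩,
              by push_cast; omega, Or.inr rfl⟩
            have e1 : min x.1 (x.1 - 1) = x.1 - 1 := by omega
            have e2 : min x.2 (q.2 + 1) = q.2 := by omega
            simp only [e1, e2]
            exact hsq
          · refine ⟨(x.1 - 1, q.2), hx1.tail ⟨Or.inr rfl, Or.inr (by simp only; omega), ?_⟩,
              by push_cast; omega, Or.inl rfl⟩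
            have e1 : min x.1 (x.1 - 1) = x.1 - 1 := by omega
            have e2 : min x.2 q.2 = q.2 := by omega
            simp only [e1, e2]
            exact hsq
      obtain ⟨x, hx1, hx2, -⟩ := this
      exact ⟨x, hx1, Or.inr hx2⟩
    · intro n
      have : ∃ x : ℤ × ℤ, Pw κᶜ q x ∧ x.1 = q.1 + n ∧ (x.2 = q.2 ∨ x.2 = q.2 + 1) := by
        induction n with
        | zero => exact ⟨q, ReflTransGen.refl, by simp, Or.inl rfl⟩
        | succ n ih =>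
          obtain ⟨x, hx1, hx2, hx3⟩ := ih
          have hsq : (x.1, q.2) ∈ κᶜ := fun h3 => by
            have := h2 _ h3 rfl
            simp only at this
            omega
          rcases hx3 with hx3 | hx3
          · refine ⟨(x.1 + 1, q.2 + 1), hx1.tail ⟨Or.inl rfl, Or.inl (by simp only; omega), ?_⟩,
              by push_cast; omega, Or.inr rfl⟩
            have e1 : min x.1 (x.1 + 1) = x.1 := by omega
            have e2 : min x.2 (q.2 + 1) = q.2 := by omega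
            simp only [e1, e2]
            exact hsq
          · refine ⟨(x.1 + 1, q.2), hx1.tail ⟨Or.inl rfl, Or.inr (by simp only; omega), ?_⟩,
              by push_cast; omega, Or.inl rfl⟩
            have e1 : min x.1 (x.1 + 1) = x.1 := by omega
            have e2 : min x.2 q.2 = q.2 := by omega
            simp only [e1, e2]
            exact hsq
      obtain ⟨x, hx1, hx2, -⟩ := this
      exact ⟨x, hx1, Or.inl hx2⟩
  obtain ⟨x, hx1, hx2⟩ := hz (|q.1| + |B|).toNat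
  have e : (((|q.1| + |B|).toNat : ℕ) : ℤ) = |q.1| + |B| := Int.toNat_of_nonneg (by positivity)
  rw [e] at hx2
  have a1 := neg_abs_le q.1
  have a2 := le_abs_self q.1
  have a3 := le_abs_self B
  refine ⟨x, h1.trans hx1, ?_⟩
  rcases hx2 with hx2 | hx2
  · right; omega
  · left; omega

/-- The inside of the box. -/
def Bx (z : Pt) (s : ℤ) (x : Pt) : Prop :=
  z.1 - 6 * s < x.1 ∧ x.1 < z.1 + 6 * s ∧ z.2 - 6 * s < x.2 ∧ x.2 < z.2 + 6 * s

/-- The squares of the box. -/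
noncomputable def Bq (z : Pt) (s : ℤ) : Finset Pt :=
  Rsq (z.1 - 6 * s) (z.1 + 6 * s) (z.2 - 6 * s) (z.2 + 6 * s)

theorem mem_Bq {z : Pt} {s : ℤ} {v : Pt} : v ∈ Bq z s ↔
    z.1 - 6 * s ≤ v.1 ∧ v.1 < z.1 + 6 * s ∧ z.2 - 6 * s ≤ v.2 ∧ v.2 < z.2 + 6 * s := mem_Rsq

theorem exit_box {F : Set Pt} {z : Pt} {s : ℤ} {p q : Pt} (hp : Bx z s p) (h : Pw F p q) :
    (∃ v, ¬ Bx z s v ∧ Pw (F ∩ ↑(Bq z s)) p v) ∨ (Bx z s q ∧ Pw (F ∩ ↑(Bq z s)) p q) := by
  induction h with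
  | refl => exact Or.inr ⟨hp, ReflTransGen.refl⟩
  | @tail a b hab hb ih =>
    rcases ih with ih | ⟨ha, h1⟩
    · exact Or.inl ih
    · have hst : PStep (F ∩ ↑(Bq z s)) a b := by
        refine ⟨hb.1, hb.2.1, hb.2.2, ?_⟩
        rw [mem_coe, mem_Bq]
        have h2 := hb.1
        have h3 := hb.2.1
        unfold Bx at ha
        simp only
        omega
      by_cases hbx : Bx z s b
      · exact Or.inr ⟨hbx, h1.tail hst⟩
      · exact Or.inl ⟨b, hbx, h1.tail hst⟩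

open Classical in
/-- The squares of the box off `κ` with the label `i`. -/
noncomputable def Kl (c : Bool) (κ : Finset Pt) (l : Pt → Bool) (i : Bool) (z : Pt) (s : ℤ) :
    Finset Pt :=
  (Bq z s).filter fun v => v ∉ κ ∧ ∀ p, NET.Cor (!c) v p → l p = i

variable {c : Bool} {κ : Finset Pt} {l : Pt → Bool} {i : Bool} {z : Pt} {s m0 m1 : ℤ}

theorem mem_Kl {v : Pt} :
    v ∈ Kl c κ l i z s ↔ v ∈ Bq z s ∧ v ∉ κ ∧ ∀ p, NET.Cor (!c) v p → l p = i := by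
  classical
  unfold Kl
  rw [mem_filter]

theorem pw_lab
    (hl : ∀ p p' : Pt, (p.1 + p.2) % 2 = pr (!c) → Pw (Rows (↑κ)ᶜ m0 m1) p p' → l p' = l p)
    (hb0 : m0 ≤ z.2 - 6 * s) (hb1 : z.2 + 6 * s ≤ m1) {p q : Pt} (hp : (p.1 + p.2) % 2 = pr (!c))
    (hlp : l p = i) (h : Pw ((↑κ)ᶜ ∩ ↑(Bq z s)) p q) :
    Pw ↑(Kl c κ l i z s) p q ∧ Pw (Rows (↑κ)ᶜ m0 m1) p q := by
  induction h with
  | refl => exact ⟨ReflTransGen.refl, ReflTransGen.refl⟩
  | @tail a b hab hb ih =>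
    obtain ⟨ih1, ih2⟩ := ih
    have ha : (a.1 + a.2) % 2 = pr (!c) := (Pw.parity ih2).symm.trans hp
    have hla : l a = i := (hl p a hp ih2).trans hlp
    have hv := hb.2.2
    have hvb := mem_Bq.1 (mem_coe.1 hv.2)
    have hvR : (min a.1 b.1, min a.2 b.2) ∈ Rows ((↑κ : Set Pt)ᶜ) m0 m1 :=
      ⟨hv.1, by omega, by omega⟩
    have hc := NET.cor_of_step (c := !c) hb ha
    refine ⟨ih1.tail ⟨hb.1, hb.2.1, mem_coe.2 (mem_Kl.2 ⟨mem_coe.1 hv.2, hv.1, fun x hx => ?_⟩)⟩,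
      ih2.tail ⟨hb.1, hb.2.1, hvR⟩⟩
    exact (hl a x ha (NET.pw_of_cor hvR hc.1 hx)).trans hla

/-- **A wall.** -/
theorem wall (he : ∀ v p : Pt, v ∉ κ → NET.Cor (!c) v p → Esc ↑κ p) (hs : 1 ≤ s)
    (hl : ∀ p p' : Pt, (p.1 + p.2) % 2 = pr (!c) → Pw (Rows (↑κ)ᶜ m0 m1) p p' → l p' = l p)
    (hb0 : m0 ≤ z.2 - 6 * s) (hb1 : z.2 + 6 * s ≤ m1) {x : ℤ} (hx : (x, z.2) ∉ κ)
    (hlx : ∀ p, NET.Cor (!c) (x, z.2) p → l p = i) (hx0 : z.1 ≤ x) (hx1 : x + 1 ≤ z.1 + s) :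
    Wl (!c) ↑(Kl c κ l i z s) z s := by
  obtain ⟨p, hp⟩ := NET.exists_cor (!c) (x, z.2)
  have hp1 := hp.1
  have hp2 := hp.2.1
  simp only at hp1 hp2
  have hbp : Bx z s p := by unfold Bx; omega
  obtain ⟨q, h1, h2⟩ := esc_far (he (x, z.2) p hx hp) (|z.1| + 6 * s)
  have a1 := neg_abs_le z.1
  have a2 := le_abs_self z.1
  have hq : ¬ Bx z s q := by
    unfold Bx
    omega
  rcases exit_box hbp h1 with ⟨v, hv, h3⟩ | ⟨h3, -⟩
  · obtain ⟨h4, -⟩ := pw_lab (c := c) hl hb0 hb1 hp.2.2 (hlx p hp) h3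
    refine ⟨p, v, hp.2.2, ?_, ?_, h4⟩
    · omega
    · unfold Bx at hv
      omega
  · exact absurd h3 hq

/-- **The barrier.** -/
theorem barrier (he : ∀ v p : Pt, v ∉ κ → NET.Cor (!c) v p → Esc ↑κ p) {y0 y1 : ℤ} (h0 : y0 ≤ m0)
    (h1 : m1 < y1) {s t : Pt} (hs : (s.1 + s.2) % 2 = pr c) (hs2 : s.2 = y0) (ht2 : t.2 = y1)
    (hst : Pw (Rows ↑κ y0 y1) s t) {y r : ℤ} (hy0 : m0 ≤ y - 6 * (r + 2))
    (hy1 : y + 6 * (r + 2) < m1) (hrow : ((κ.filter fun v => v.2 = y).card : ℤ) ≤ r) :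
    ∃ (z : Pt) (σ : ℤ) (K₁ K₂ : Finset Pt), z.2 = y ∧ 1 ≤ σ ∧ σ ≤ r + 2 ∧ Wl (!c) ↑K₁ z σ ∧
      Wl (!c) ↑K₂ z σ ∧ Rg z σ \ (K₁ ∪ K₂) ⊆ κ ∧
      ∀ (s' t' : Pt) (F G : Set Pt), Pw (Rows ↑κ y0 m0) s s' → Pw (Rows ↑κ m1 y1) t t' →
        Pw F s' t' → s'.2 = y0 → t'.2 = y1 → F ⊆ ↑κ → G ⊆ ↑(Rg z σ \ (K₁ ∪ K₂)) →
        (∀ v ∈ G, v ∉ F) → ∀ p ∈ NET.Vc (!c) ↑K₁, ∀ p' ∈ NET.Vc (!c) ↑K₂, ¬ Pw G p p' := by
  classical
  obtain ⟨l, l1, l0, lp, lb⟩ := lab_c c h0 h1 hs hs2 ht2 hst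
  obtain ⟨x1, x2, hx, n1, n2, hmid, c1, c2, hgap⟩ := row_c c (κ := κ) (y := y) (m0 := m0)
    (m1 := m1) (by omega) (by omega) (l := l)
    (fun p hp h => l1 p (by omega) (by omega) h) (fun p _ h => l0 p h)
    (fun p p' hp hpp => lp p p' hp (Pw.mono (G := Rows (↑κ)ᶜ m0 m1) (fun v hv => ⟨hv.1, hv.2⟩) hpp))
  refine ⟨(x1, y), x2 - x1 + 1, Kl c κ l true (x1, y) (x2 - x1 + 1),
    Kl c κ l false (x1, y) (x2 - x1 + 1), rfl, by omega, by omega, ?_, ?_, ?_, ?_⟩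
  · exact wall he (by omega) lp (by simp only; omega) (by simp only; omega)
      n1 c1 le_rfl (by simp only; omega)
  · exact wall he (by omega) lp (by simp only; omega) (by simp only; omega)
      n2 c2 hx.le (by simp only; omega)
  · intro v hv
    rw [mem_sdiff, mem_union, not_or] at hv
    obtain ⟨hv1, hv2, hv3⟩ := hv
    by_contra hvκ
    have hvB : v ∈ Bq (x1, y) (x2 - x1 + 1) := (mem_sdiff.1 hv1).1
    have hvb := mem_Bq.1 hvB
    simp only at hvb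
    obtain ⟨p, hp⟩ := NET.exists_cor (!c) v
    have hall : ∀ x, NET.Cor (!c) v x → l x = l p := fun x hx =>
      lp p x hp.2.2 (NET.pw_of_cor ⟨fun h => hvκ (mem_coe.1 h), by omega, by omega⟩ hp hx)
    cases h : l p
    · exact hv3 (mem_Kl.2 ⟨hvB, hvκ, fun x hx => (hall x hx).trans h⟩)
    · exact hv2 (mem_Kl.2 ⟨hvB, hvκ, fun x hx => (hall x hx).trans h⟩)
  · intro s' t' F G hss htt hF hs' ht' hFκ hG hGF p hp p' hp' hpp
    have key : ∀ i : Bool, ∀ x ∈ NET.Vc (!c) (↑(Kl c κ l i (x1, y) (x2 - x1 + 1)) : Set Pt),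
        (x.1 + x.2) % 2 = pr (!c) ∧ m0 ≤ x.2 ∧ x.2 < m1 ∧ Esc (↑κ) x ∧ l x = i := by
      rintro i x ⟨v, hv, hc⟩
      obtain ⟨hvB, hvκ, hvl⟩ := mem_Kl.1 (mem_coe.1 hv)
      rw [mem_Bq] at hvB
      have hc2 := hc.2.1
      simp only at hvB
      exact ⟨hc.2.2, by omega, by omega, he v x hvκ hc, hvl x hc⟩
    obtain ⟨k1, k2, k3, k4, k5⟩ := key true p hp
    obtain ⟨j1, j2, j3, j4, j5⟩ := key false p' hp'
    have h2 := lb p p' s' t' F G k1 k2 k3 j2 j3 k4 j4 hss htt hF hs' ht' hFκ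
      (fun v hv => ⟨hGF v hv, ?_⟩) hpp
    · rw [k5, j5] at h2
      exact Bool.false_ne_true h2
    · have hvR := mem_coe.1 (hG hv)
      have hvB : v ∈ Bq (x1, y) (x2 - x1 + 1) := (mem_sdiff.1 (mem_sdiff.1 hvR).1).1
      rw [mem_Bq] at hvB
      simp only at hvB
      omega

end Vale.Agent.P167.H24
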