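import Vale.Agent.P167.FKA.Wir
import Vale.Agent.P167.H262.WstFK

/-!
# P167, rough channels: products of conditional probabilities

`pr_prod`: events on disjoint sets of squares with conditional probabilities at most `p i`.
`pr_sum`: union bound.
-/

set_option autoImplicit false

namespace Vale.Agent.P167.H24

open Finset Vale.Agent.P167.FK Vale.Agent.P167.FKA
open Vale.Agent.P167.H259 (f_markov)

variable {Q : ℝ} {D D' : Finset (ℤ × ℤ)} {η : Cfg}

theorem pr_inter (hQ : 0 < Q) (hη : Good η) (hD : D' ⊆ D) {A E : Set Cfg}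
    (hE : Ind D' (E.indicator 1)) {p : ℝ} (h : ∀ ζ, Good ζ → Pr Q D' ζ A ≤ p) :
    Pr Q D η (E ∩ A) ≤ p * Pr Q D η E := by
  have e1 : Pr Q D η (E ∩ A) = Ex Q D η (fun ω => E.indicator 1 ω * A.indicator 1 ω) :=
    Ex_congr fun S _ => ind_inter E A _
  rw [e1]
  exact markov_le f_markov f_good hQ hD hη hE (fun _ => ind_nonneg _ _) h

/-- `A` depends only on the squares of `V`. -/
def LocS (V : Finset (ℤ × ℤ)) (A : Set Cfg) : Prop :=
  ∀ ω ω' : Cfg, (∀ v, v ∈ V → ω v = ω' v) → ω ∈ A → ω' ∈ A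

theorem LocS.loc {V : Finset (ℤ × ℤ)} {A : Set Cfg} (h : LocS V A) :
    Loc V (A.indicator (1 : Cfg → ℝ)) := by
  intro ω ω' hω
  by_cases h1 : ω ∈ A
  · rw [Set.indicator_of_mem h1, Set.indicator_of_mem (h ω ω' hω h1)]
    rfl
  · rw [Set.indicator_of_notMem h1, Set.indicator_of_notMem fun h2 => h1
      (h ω' ω (fun v hv => (hω v hv).symm) h2)]

/-- `A` does not depend on the squares of `V`. -/
def IndS (V : Finset (ℤ × ℤ)) (A : Set Cfg) : Prop :=
  ∀ ω ω' : Cfg, (∀ v, v ∉ V → ω v = ω' v) → ω ∈ A → ω' ∈ A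

theorem IndS.ind {V : Finset (ℤ × ℤ)} {A : Set Cfg} (h : IndS V A) :
    Ind V (A.indicator (1 : Cfg → ℝ)) := by
  intro ω ω' hω
  by_cases h1 : ω ∈ A
  · rw [Set.indicator_of_mem h1, Set.indicator_of_mem (h ω ω' hω h1)]
    rfl
  · rw [Set.indicator_of_notMem h1, Set.indicator_of_notMem fun h2 => h1
      (h ω' ω (fun v hv => (hω v hv).symm) h2)]

theorem LocS.mono {V V' : Finset (ℤ × ℤ)} (hV : V ⊆ V') {A : Set Cfg} (h : LocS V A) :
    LocS V' A := fun ω ω' hω => h ω ω' fun v hv => hω v (hV hv)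

theorem LocS.inter {V : Finset (ℤ × ℤ)} {A B : Set Cfg} (hA : LocS V A) (hB : LocS V B) :
    LocS V (A ∩ B) := fun ω ω' hω h => ⟨hA ω ω' hω h.1, hB ω ω' hω h.2⟩

theorem LocS.compl {V : Finset (ℤ × ℤ)} {A : Set Cfg} (h : LocS V A) : LocS V Aᶜ :=
  fun ω ω' hω h1 h2 => h1 (h ω' ω (fun v hv => (hω v hv).symm) h2)

theorem pr_univ (hQ : 0 < Q) : Pr Q D η Set.univ = 1 := by
  unfold Pr
  have : (Set.univ : Set Cfg).indicator (1 : Cfg → ℝ) = fun _ => 1 := by
    funext ω
    simp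
  rw [this, Ex_const hQ]

/-- **Product bound.** -/
theorem pr_prod {ι : Type*} (hQ : 0 < Q) (hη : Good η) (s : Finset ι) (V : ι → Finset (ℤ × ℤ))
    (A : ι → Set Cfg) (p : ι → ℝ) (hV : ∀ i ∈ s, V i ⊆ D)
    (hd : ∀ i ∈ s, ∀ j ∈ s, i ≠ j → Disjoint (V i) (V j)) (hA : ∀ i ∈ s, LocS (V i) (A i))
    (h : ∀ i ∈ s, ∀ ζ, Good ζ → Pr Q (V i) ζ (A i) ≤ p i) (hp : ∀ i ∈ s, 0 ≤ p i) :
    Pr Q D η {ω | ∀ i ∈ s, ω ∈ A i} ≤ ∏ i ∈ s, p i := by
  classical
  induction s using Finset.induction_on with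
  | empty =>
    simp only [Finset.notMem_empty, false_imp_iff, implies_true, Finset.prod_empty]
    have := pr_univ (Q := Q) (D := D) (η := η) hQ
    exact le_of_eq (by simpa using this)
  | @insert a s ha ih =>
    have e1 : {ω : Cfg | ∀ i ∈ insert a s, ω ∈ A i} = {ω | ∀ i ∈ s, ω ∈ A i} ∩ A a := by
      ext ω
      simp only [Finset.mem_insert, forall_eq_or_imp, Set.mem_ofPred_eq, Set.mem_inter_iff]
      tauto
    rw [e1, Finset.prod_insert ha]
    have hE : IndS (V a) {ω : Cfg | ∀ i ∈ s, ω ∈ A i} := by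
      intro ω ω' hω h1 i hi
      refine hA i (Finset.mem_insert_of_mem hi) ω ω' (fun v hv => hω v fun hva => ?_) (h1 i hi)
      exact (Finset.disjoint_left.1 (hd i (Finset.mem_insert_of_mem hi) a
        (Finset.mem_insert_self _ _) fun e => ha (e ▸ hi))) hv hva
    refine (pr_inter hQ hη (hV a (Finset.mem_insert_self _ _)) hE.ind
      (h a (Finset.mem_insert_self _ _))).trans ?_
    refine mul_le_mul_of_nonneg_left ?_ (hp a (Finset.mem_insert_self _ _))
    exact ih (fun i hi => hV i (Finset.mem_insert_of_mem hi))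
      (fun i hi j hj => hd i (Finset.mem_insert_of_mem hi) j (Finset.mem_insert_of_mem hj))
      (fun i hi => hA i (Finset.mem_insert_of_mem hi))
      (fun i hi => h i (Finset.mem_insert_of_mem hi))
      fun i hi => hp i (Finset.mem_insert_of_mem hi)

/-- **Union bound.** -/
theorem pr_sum {ι : Type*} (hQ : 0 < Q) (s : Finset ι) (A : ι → Set Cfg) {E : Set Cfg}
    (h : ∀ ω ∈ E, ∃ i ∈ s, ω ∈ A i) : Pr Q D η E ≤ ∑ i ∈ s, Pr Q D η (A i) := by
  classical
  have key : Pr Q D η {ω | ∃ i ∈ s, ω ∈ A i} ≤ ∑ i ∈ s, Pr Q D η (A i) := by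
    clear h
    induction s using Finset.induction_on with
    | empty =>
      simp only [Finset.notMem_empty, false_and, exists_false, Finset.sum_empty]
      refine le_of_eq ?_
      unfold Pr
      have : ({_ω : Cfg | False} : Set Cfg).indicator (1 : Cfg → ℝ) = fun _ => 0 := by
        funext ω
        simp
      rw [this, Ex_const hQ]
    | @insert a s ha ih =>
      rw [Finset.sum_insert ha]
      refine le_trans ?_ (add_le_add_right ih _)
      refine le_trans (Pr_mono hQ ?_) (Pr_union_le hQ _ _)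
      rintro ω ⟨i, hi, h1⟩
      rcases Finset.mem_insert.1 hi with rfl | hi
      · exact Or.inl h1
      · exact Or.inr ⟨i, hi, h1⟩
  exact (Pr_mono hQ h).trans key

end Vale.Agent.P167.H24
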