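import Vale.Agent.P167.H24.ChG
import Vale.Agent.P167.H24.ChP

/-!
# P167, rough channels in strips: the barrier of a layer

`sparse_row`: a row with few squares in the middle of a layer. `block`: in a layer with few squares
there is an event of probability at most `1 - a`, for every configuration outside, which contains all
the crossings of one class.
-/

set_option autoImplicit false

namespace Vale.Agent.P167.H24

open Finset Vale.Agent.P145.FB Vale.Agent.P167.FK Vale.Agent.P167.H871 Vale.Agent.P167.H632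
  Vale.Agent.P167.H192.TA Vale.Agent.P167.H262 Vale.Agent.P167.FKA
open Vale.Agent.P167.N
open Relation (ReflTransGen)
open Vale.Agent.P167.H575 (Esc Rows)
open Vale.Agent.P167.H366 (Rg Wl)

/-- **A row with few squares.** -/
theorem sparse_row (L : Finset Pt) (Y : ℤ) (S : ℕ) (hS : 200 ≤ S) (hc : 100 * L.card ≤ S ^ 2) :
    ∃ (y : ℤ) (r : ℕ), Y ≤ y - 6 * (r + 2) ∧ y + 6 * (r + 2) < Y + S ∧
      (L.filter fun v => v.2 = y).card ≤ r := by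
  classical
  obtain ⟨k, hk⟩ : ∃ k : ℕ, k = S / 3 := ⟨_, rfl⟩
  have hk1 : 3 * k ≤ S := by omega
  have hk2 : S ≤ 3 * k + 2 := by omega
  have hk0 : 66 ≤ k := by omega
  -- the sum over the rows
  have hsum : ∑ i ∈ range k, (L.filter fun v => v.2 = Y + k + i).card ≤ L.card := by
    rw [← card_biUnion]
    · refine card_le_card fun v hv => ?_
      obtain ⟨i, -, hv⟩ := mem_biUnion.1 hv
      exact (mem_filter.1 hv).1
    · intro i _ j _ hij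
      rw [Function.onFun, disjoint_left]
      intro v hv hv'
      have h1 := (mem_filter.1 hv).2
      have h2 := (mem_filter.1 hv').2
      exact hij (by omega)
  obtain ⟨i, hi, hle⟩ : ∃ i ∈ range k, k * (L.filter fun v => v.2 = Y + k + i).card ≤ L.card := by
    by_contra hcon
    push Not at hcon
    have h1 : ∑ i ∈ range k, L.card < ∑ i ∈ range k, k * (L.filter fun v => v.2 = Y + k + i).card :=
      sum_lt_sum_of_nonempty ⟨0, mem_range.2 (by omega)⟩ hcon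
    rw [sum_const, card_range, ← mul_sum, smul_eq_mul] at h1
    have h2 := Nat.mul_le_mul_left k hsum
    omega
  rw [mem_range] at hi
  obtain ⟨r, hr⟩ : ∃ r : ℕ, r = (L.filter fun v => v.2 = Y + k + i).card := ⟨_, rfl⟩
  rw [← hr] at hle
  have h6 : 6 * (r + 2) ≤ k := by
    by_contra hcon
    push Not at hcon
    have h1 : k ≤ 6 * r + 11 := by omega
    have h2 : 100 * (k * r) ≤ (3 * k + 2) ^ 2 :=
      (Nat.mul_le_mul_left 100 hle).trans (hc.trans (Nat.pow_le_pow_left hk2 2))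
    have h3 : k * k ≤ k * (6 * r + 11) := Nat.mul_le_mul_left k h1
    have h4 : 66 * k ≤ k * k := Nat.mul_le_mul_right k hk0
    nlinarith
  refine ⟨Y + k + i, r, by omega, by omega, hr.ge⟩

/-- Connections depend on the squares used. -/
theorem locS_Jn {e : Bool} {F A B : Set Pt} {V : Finset Pt} (h : F ⊆ ↑V) :
    LocS V (NET.Jn e F A B) := by
  rintro ω ω' hω ⟨u, hu, v, hv, h1⟩
  refine ⟨u, hu, v, hv, h1.mono ?_⟩
  rintro s ⟨hs1, hs2⟩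
  refine ⟨?_, hs2⟩
  show ω' s = e
  rw [← hω s (mem_coe.1 (h hs2))]
  exact hs1

/-- The crossings of one class. -/
def Cr (c : Bool) (κ ρ u : Finset Pt) (y0 y1 : ℤ) : Set Cfg :=
  NET.Jn c (Rows ↑κ y0 y1) (NET.Vc c ↑ρ ∩ rw c y0) (NET.Vc c ↑u ∩ rw c y1)

variable {Q : ℝ} {c : Bool} {κ : Finset Pt} {y0 y1 m0 m1 : ℤ}

/-- **The barrier of a layer.** -/
theorem block (hQ : 0 < Q) {a : ℝ} (ha1 : a ≤ 1)
    (hT : ∀ (e : Bool) (z : Pt) (s : ℤ), 1 ≤ s → ∀ (K₁ K₂ D : Finset Pt) (η : Cfg), Good η →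
      Wl e ↑K₁ z s → Wl e ↑K₂ z s → Rg z s \ (K₁ ∪ K₂) ⊆ D →
      a ≤ Pr Q D η (NET.Jn e ↑(Rg z s \ (K₁ ∪ K₂)) (NET.Vc e ↑K₁) (NET.Vc e ↑K₂)))
    (he : ∀ v p : Pt, v ∉ κ → NET.Cor (!c) v p → Esc ↑κ p) (h0 : y0 ≤ m0) (h1 : m1 < y1)
    {L : Finset Pt} {Y : ℤ} {S : ℕ} (hL : ∀ v, v ∈ L ↔ v ∈ κ ∧ v ∈ Rw Y (Y + S)) (hY0 : m0 ≤ Y)
    (hY1 : Y + S ≤ m1) (hS : 200 ≤ S) (hc : 100 * L.card ≤ S ^ 2) {ρ u : Finset Pt}
    (hρ : (↑ρ : Set Pt) ⊆ Rows ↑κ y0 m0) (hρc : ∀ v ∈ ρ, ∀ v' ∈ ρ, Jd c ↑ρ v v')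
    (hu : (↑u : Set Pt) ⊆ Rows ↑κ m1 y1) (huc : ∀ v ∈ u, ∀ v' ∈ u, Jd c ↑u v v') :
    ∃ T : Set Cfg, LocS L T ∧ (∀ ζ, Good ζ → Pr Q L ζ T ≤ 1 - a) ∧ Cr c κ ρ u y0 y1 ⊆ T := by
  classical
  by_cases hex : ∃ ω, ω ∈ Cr c κ ρ u y0 y1
  · obtain ⟨ω₀, s, ⟨⟨vs, hvs, hsv⟩, hs2, hs3⟩, t, ⟨⟨vt, hvt, htv⟩, ht2, ht3⟩, hst⟩ := hex
    obtain ⟨y, r, k1, k2, k3⟩ := sparse_row L Y S hS hc
    have hLκ : (κ.filter fun v => v.2 = y) ⊆ L.filter fun v => v.2 = y := by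
      intro v hv
      obtain ⟨hv1, hv2⟩ := mem_filter.1 hv
      refine mem_filter.2 ⟨(hL v).2 ⟨hv1, ?_, ?_⟩, hv2⟩ <;> omega
    obtain ⟨z, σ, K₁, K₂, hz, hσ1, hσ2, hW1, hW2, hRg, hB⟩ := barrier (c := c) he h0 h1 hs3 hs2 ht2
      (hst.mono Set.inter_subset_right) (y := y) (r := r) (by omega) (by omega)
      (by exact_mod_cast (card_le_card hLκ).trans k3)
    have hRL : Rg z σ \ (K₁ ∪ K₂) ⊆ L := by
      intro v hv
      have hvB : v ∈ Bq z σ := (mem_sdiff.1 (mem_sdiff.1 hv).1).1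
      rw [mem_Bq] at hvB
      refine (hL v).2 ⟨hRg hv, ?_, ?_⟩ <;> omega
    refine ⟨(NET.Jn (!c) ↑(Rg z σ \ (K₁ ∪ K₂)) (NET.Vc (!c) ↑K₁) (NET.Vc (!c) ↑K₂))ᶜ,
      (locS_Jn (by exact_mod_cast hRL)).compl, fun ζ hζ => ?_, ?_⟩
    · rw [Pr_compl hQ]
      have := hT (!c) z σ hσ1 K₁ K₂ L ζ hζ hW1 hW2 hRL
      linarith
    · rintro ω ⟨s', ⟨⟨vs', hvs', hsv'⟩, hs2', hs3'⟩, t', ⟨⟨vt', hvt', htv'⟩, ht2', ht3'⟩, hst'⟩
        ⟨p, hp, p', hp', hpp⟩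
      refine hB s' t' (cs c ω ∩ Rows ↑κ y0 y1) (cs (!c) ω ∩ ↑(Rg z σ \ (K₁ ∪ K₂)))
        (Pw.mono hρ (H575.Jd.pw (hρc _ hvs _ hvs') s s' hsv hsv'))
        (Pw.mono hu (H575.Jd.pw (huc _ hvt _ hvt') t t' htv htv')) hst' hs2' ht2'
        (fun v hv => hv.2.1) Set.inter_subset_right (fun v hv h => ?_) p hp p' hp' hpp
      have e1 := hv.1
      have e2 := h.1
      simp only [cs, Set.mem_ofPred_eq] at e1 e2
      rw [e1] at e2
      cases c <;> simp at e2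
  · refine ⟨∅, fun _ _ _ h => h, fun ζ _ => ?_, fun ω hω => hex ⟨ω, hω⟩⟩
    have h2 : Pr Q L ζ (∅ : Set Cfg) = 0 := by
      have := Pr_compl (D := L) (η := ζ) hQ (Set.univ : Set Cfg)
      rw [pr_univ hQ, Set.compl_univ, sub_self] at this
      exact this
    rw [h2]
    linarith

end Vale.Agent.P167.H24
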