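import Vale.Agent.P167.H24.ChDef

/-!
# P167, rough channels in strips: layers
-/

set_option autoImplicit false

namespace Vale.Agent.P167.H24

open Finset Vale.Agent.P167.H871

open Classical in
/-- The rows `Y, …, Y + S - 1` of `κ`. -/
noncomputable def lay (κ : Finset Pt) (Y : ℤ) (S : ℕ) : Finset Pt :=
  κ.filter fun v => v ∈ Rw Y (Y + S)

theorem mem_lay {κ : Finset Pt} {Y : ℤ} {S : ℕ} {v : Pt} :
    v ∈ lay κ Y S ↔ v ∈ κ ∧ v ∈ Rw Y (Y + S) := by
  classical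
  unfold lay
  rw [mem_filter]

theorem lay_sub {κ : Finset Pt} {Y : ℤ} {S : ℕ} : lay κ Y S ⊆ κ := fun _ h => (mem_lay.1 h).1

theorem lay_le {S i j : ℕ} {y0 : ℤ} (h : i < j) : y0 + i * S + S ≤ y0 + j * S := by
  have h1 : (i + 1) * S ≤ j * S := Nat.mul_le_mul_right S h
  have h2 : (((i + 1) * S : ℕ) : ℤ) ≤ ((j * S : ℕ) : ℤ) := by exact_mod_cast h1
  push_cast at h2
  linarith

theorem lay_disj {κ : Finset Pt} {y0 : ℤ} {S i j : ℕ} (h : i ≠ j) :
    Disjoint (lay κ (y0 + i * S) S) (lay κ (y0 + j * S) S) := by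
  rw [disjoint_left]
  intro v hv hv'
  have h1 := (mem_lay.1 hv).2
  have h2 := (mem_lay.1 hv').2
  unfold Rw at h1 h2
  simp only [Set.mem_ofPred_eq] at h1 h2
  rcases lt_or_gt_of_ne h with h | h
  · have := lay_le (S := S) (y0 := y0) h
    omega
  · have := lay_le (S := S) (y0 := y0) h
    omega

theorem sum_lay (κ : Finset Pt) (y0 : ℤ) (S : ℕ) (s : Finset ℕ) :
    ∑ j ∈ s, (lay κ (y0 + j * S) S).card ≤ κ.card := by
  classical
  rw [← card_biUnion fun i _ j _ hij => lay_disj hij]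
  refine card_le_card fun v hv => ?_
  obtain ⟨i, -, hv⟩ := mem_biUnion.1 hv
  exact lay_sub hv

/-- **Good layers.** -/
theorem layers (κ : Finset Pt) (y0 : ℤ) {w S : ℕ} (hS : 0 < S)
    (hd : (κ.card : ℝ) / (1 / 100 * (S : ℝ) ^ 2) ≤ (w : ℝ) / (2 * S))
    (h3 : (3 : ℝ) ≤ (w : ℝ) / (2 * S) - 3) :
    ∃ (j0 j1 : ℕ) (M : Finset ℕ), (j1 + 1) * S ≤ w ∧ j0 < j1 ∧ (∀ j ∈ M, j0 < j ∧ j < j1) ∧
      100 * (lay κ (y0 + j0 * S) S).card ≤ S ^ 2 ∧ 100 * (lay κ (y0 + j1 * S) S).card ≤ S ^ 2 ∧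
      (∀ j ∈ M, 100 * (lay κ (y0 + j * S) S).card ≤ S ^ 2) ∧ (w : ℝ) / (2 * S) - 3 ≤ M.card := by
  classical
  obtain ⟨n, hn⟩ : ∃ n : ℕ, n = w / S := ⟨_, rfl⟩
  obtain ⟨J, hJ⟩ : ∃ J : Finset ℕ,
    J = (range n).filter fun j : ℕ => 100 * (lay κ (y0 + j * S) S).card ≤ S ^ 2 := ⟨_, rfl⟩
  obtain ⟨B, hB⟩ : ∃ B : Finset ℕ,
    B = (range n).filter fun j : ℕ => ¬ 100 * (lay κ (y0 + j * S) S).card ≤ S ^ 2 := ⟨_, rfl⟩
  have hcard : J.card + B.card = n := by
    rw [hJ, hB, card_filter_add_card_filter_not, card_range]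
  have hSR : (0 : ℝ) < S := by exact_mod_cast hS
  -- the bad layers
  have hbad : (B.card : ℝ) ≤ (w : ℝ) / (2 * S) := by
    refine le_trans ?_ hd
    rw [le_div_iff₀ (by positivity)]
    have h1 : B.card * S ^ 2 ≤ 100 * κ.card := by
      calc B.card * S ^ 2 = ∑ _j ∈ B, S ^ 2 := by rw [sum_const, smul_eq_mul]
        _ ≤ ∑ j ∈ B, 100 * (lay κ (y0 + j * S) S).card := by
          refine sum_le_sum fun j hj => ?_
          rw [hB, mem_filter] at hj
          omega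
        _ = 100 * ∑ j ∈ B, (lay κ (y0 + j * S) S).card := (mul_sum _ _ _).symm
        _ ≤ 100 * κ.card := Nat.mul_le_mul_left _ (sum_lay κ y0 S B)
    have h2 : (B.card : ℝ) * (S : ℝ) ^ 2 ≤ 100 * (κ.card : ℝ) := by exact_mod_cast h1
    linarith
  have hnR : (w : ℝ) / S < n + 1 := by
    rw [div_lt_iff₀ hSR]
    have : w < (n + 1) * S := by
      rw [hn]
      have := Nat.lt_div_mul_add hS (a := w)
      linarith
    exact_mod_cast this
  have e1 : (w : ℝ) / S = 2 * ((w : ℝ) / (2 * S)) := by field_simp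
  have hJR : (w : ℝ) / (2 * S) - 1 ≤ J.card := by
    have h1 : (J.card : ℝ) + B.card = n := by exact_mod_cast hcard
    linarith
  have hJ5 : 5 ≤ J.card := by
    have : (5 : ℝ) ≤ J.card := by linarith
    exact_mod_cast this
  have hne : J.Nonempty := card_pos.1 (by omega)
  have hlt := min'_lt_max'_of_card J (by omega)
  have hm := J.min'_mem hne
  have hM := J.max'_mem hne
  set j0 := J.min' hne with hj0
  set j1 := J.max' hne with hj1
  have hgood : ∀ j ∈ J, j < n ∧ 100 * (lay κ (y0 + j * S) S).card ≤ S ^ 2 := by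
    intro j hj
    rw [hJ, mem_filter, mem_range] at hj
    exact hj
  have hlt' : j0 < j1 := hlt
  refine ⟨j0, j1, (J.erase j0).erase j1, ?_, hlt', ?_, (hgood _ hm).2, (hgood _ hM).2, ?_, ?_⟩
  · have h1 : j1 + 1 ≤ n := (hgood _ hM).1
    calc (j1 + 1) * S ≤ n * S := Nat.mul_le_mul_right S h1
      _ ≤ w := by rw [hn]; exact Nat.div_mul_le_self w S
  · intro j hj
    rw [mem_erase, mem_erase] at hj
    obtain ⟨h1, h2, h3⟩ := hj
    have h4 := J.min'_le j h3
    have h5 := J.le_max' j h3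
    omega
  · intro j hj
    rw [mem_erase, mem_erase] at hj
    exact (hgood _ hj.2.2).2
  · have h1 : ((J.erase j0).erase j1).card = J.card - 2 := by
      rw [card_erase_of_mem (mem_erase.2 ⟨hlt'.ne', hM⟩), card_erase_of_mem hm]
      omega
    rw [h1, Nat.cast_sub (by omega)]
    push_cast
    linarith

end Vale.Agent.P167.H24
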