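import Vale.Agent.P167.H24.ChA
import Vale.Agent.P167.H24.ChC
import Vale.Agent.P167.H24.ChL
import Vale.Agent.P167.H24.ChN

/-!
# P167, rough channels in strips: the induction

`ch`: `TA Q` implies `CH Q`.
-/

set_option autoImplicit false

namespace Vale.Agent.P167.H24

open Finset Vale.Agent.P145.FB Vale.Agent.P167.FK Vale.Agent.P167.H871 Vale.Agent.P167.H632
  Vale.Agent.P167.H192.TA Vale.Agent.P167.H262 Vale.Agent.P167.FKA
open Vale.Agent.P167.N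
open Relation (ReflTransGen)
open Vale.Agent.P167.H575 (Esc Rows parts_c)
open Vale.Agent.P167.H366 (Rg Wl TA)

variable {Q : ℝ} {c : Bool} {K κ : Finset Pt}

/-! ### Components -/

theorem jd_comp {v w : Pt} (h : Jd c ↑K v w) : Jd c ↑(comp c K v) v w := by
  obtain ⟨h1, h2⟩ := h
  induction h2 with
  | refl => exact Jd.refl (mem_coe.2 (self_mem (mem_coe.1 h1)))
  | @tail a b hab hb ih => exact ih.tail (mem_coe.2 (mem_comp.2 ⟨h1, hab.tail hb⟩)) hb.2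

theorem comp_conn {C : Finset Pt} (hC : C ∈ comps c K) : ∀ v ∈ C, ∀ v' ∈ C, Jd c ↑C v v' := by
  obtain ⟨w, hw, rfl⟩ := mem_comps.1 hC
  intro v hv v' hv'
  exact (jd_comp (mem_comp.1 hv)).symm.trans (jd_comp (mem_comp.1 hv'))

theorem pw_comp {F : Set Pt} {C : Finset Pt} (hC : C ∈ comps c K) {s t : Pt}
    (hs : s ∈ NET.Vc c ↑C) (h : Pw (F ∩ ↑K) s t) : Pw (F ∩ ↑C) s t ∧ t ∈ NET.Vc c ↑C := by
  induction h with
  | refl => exact ⟨ReflTransGen.refl, hs⟩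
  | @tail a b hab hb ih =>
    obtain ⟨ih1, v, hv, hva⟩ := ih
    obtain ⟨c1, c2, -⟩ := NET.cor_of_step (c := c) hb hva.2.2
    have hm : (min a.1 b.1, min a.2 b.2) ∈ C := by
      obtain ⟨w, hw, rfl⟩ := mem_comps.1 hC
      exact mem_comp.2 ((mem_comp.1 (mem_coe.1 hv)).tail hb.2.2.2 ⟨a, hva, c1⟩)
    exact ⟨ih1.tail ⟨hb.1, hb.2.1, hb.2.2.1, mem_coe.2 hm⟩, _, mem_coe.2 hm, c2⟩

theorem pw_start {F : Set Pt} {s t : Pt} (hs : (s.1 + s.2) % 2 = pr c) (hst : s ≠ t)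
    (h : Pw (F ∩ ↑K) s t) : ∃ C ∈ comps c K, s ∈ NET.Vc c ↑C := by
  rcases ReflTransGen.cases_head h with h | ⟨x, h1, -⟩
  · exact absurd h hst
  · obtain ⟨c1, -, -⟩ := NET.cor_of_step (c := c) h1 hs
    have hm : (min s.1 x.1, min s.2 x.2) ∈ K := mem_coe.1 h1.2.2.2
    exact ⟨comp c K (min s.1 x.1, min s.2 x.2), mem_comps.2 ⟨_, hm, rfl⟩, _,
      mem_coe.2 (self_mem hm), c1⟩

theorem coe_lay {Y : ℤ} {S : ℕ} : (↑(lay κ Y S) : Set Pt) = Rows ↑κ Y (Y + S) := by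
  ext v
  rw [mem_coe, mem_lay]
  rfl

/-- The classes of a crossing. -/
theorem cross_class {y0 Y0 m1 y1 : ℤ} {S : ℕ} (hS : 0 < S) (h0 : y0 ≤ Y0) (h01 : Y0 + S ≤ m1)
    (h1 : m1 + S ≤ y1) {ω : Cfg} (h : ω ∈ NET.Jn c ↑κ (rw c y0) (rw c y1)) :
    ∃ ρ ∈ comps c (lay κ Y0 S), ∃ u ∈ comps c (lay κ m1 S),
      ω ∈ NET.Jn c ↑ρ (rw c Y0) (rw c (Y0 + S)) ∧ ω ∈ NET.Jn c ↑u (rw c m1) (rw c (m1 + S)) ∧
      ω ∈ Cr c κ ρ u Y0 (m1 + S) := by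
  obtain ⟨s, hs, s1, hs1, t1, ht1, t, ht, k1, k2, k3⟩ := parts_c (c := c) (κ := ↑κ) (a := y0)
    (b := y1) (y0 := Y0) (m0 := Y0 + S) (m1 := m1) (y1 := m1 + S) h0 (by omega) h01
    (by omega) h1 h
  rw [← coe_lay] at k2 k3
  have e1 : s ≠ s1 := by
    rintro rfl
    have := hs.1
    have := hs1.1
    omega
  have e2 : t ≠ t1 := by
    rintro rfl
    have := ht.1
    have := ht1.1
    omega
  obtain ⟨ρ, hρ, hρs⟩ := pw_start hs.2 e1 k2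
  obtain ⟨u, hu, hut⟩ := pw_start ht.2 e2 k3.symm
  refine ⟨ρ, hρ, u, hu, ⟨s, hs, s1, hs1, (pw_comp hρ hρs k2).1⟩,
    ⟨t1, ht1, t, ht, (pw_comp hu hut k3.symm).1.symm⟩, ⟨s, ⟨hρs, hs⟩, t, ⟨hut, ht⟩, k1⟩⟩

theorem LocS.indS {V V' : Finset Pt} {A : Set Cfg} (h : LocS V A) (hd : Disjoint V V') :
    IndS V' A := fun ω ω' hω => h ω ω' fun v hv => hω v fun hv' => disjoint_left.1 hd hv hv'

/-- The sum over the components. -/
theorem sum_comps {L : Finset Pt} {G : ℝ} (hG : 0 ≤ G) {S : ℕ} (hS : 0 < S)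
    (hc : 100 * L.card ≤ S ^ 2) :
    ∑ ρ ∈ comps c L, G * ((ρ.card : ℝ) / (S : ℝ) ^ 2) ^ 2 ≤ G * (1 / 100) ^ 2 := by
  have hSR : (0 : ℝ) < S := by exact_mod_cast hS
  have h1 : (L.card : ℝ) / (S : ℝ) ^ 2 ≤ 1 / 100 := by
    rw [div_le_div_iff₀ (by positivity) (by norm_num)]
    have : (100 : ℝ) * L.card ≤ (S : ℝ) ^ 2 := by exact_mod_cast hc
    linarith
  have h2 : ∑ ρ ∈ comps c L, G * ((ρ.card : ℝ) / (S : ℝ) ^ 2) ^ 2 =
      G * (∑ ρ ∈ comps c L, (ρ.card : ℝ) ^ 2) / (S : ℝ) ^ 4 := by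
    rw [mul_sum, sum_div]
    refine sum_congr rfl fun ρ _ => ?_
    rw [div_pow]
    ring
  rw [h2]
  calc G * (∑ ρ ∈ comps c L, (ρ.card : ℝ) ^ 2) / (S : ℝ) ^ 4
      ≤ G * (L.card : ℝ) ^ 2 / (S : ℝ) ^ 4 := by
        refine div_le_div_of_nonneg_right ?_ (by positivity)
        exact mul_le_mul_of_nonneg_left sum_sq_comps hG
    _ = G * ((L.card : ℝ) / (S : ℝ) ^ 2) ^ 2 := by rw [div_pow]; ring
    _ ≤ G * (1 / 100) ^ 2 := by
        refine mul_le_mul_of_nonneg_left ?_ hG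
        exact pow_le_pow_left₀ (by positivity) h1 2

/-- The box lemma with a constant. -/
def TAc (Q a : ℝ) : Prop :=
  ∀ (e : Bool) (z : Pt) (s : ℤ), 1 ≤ s → ∀ (K₁ K₂ D : Finset Pt) (η : Cfg), Good η →
    Wl e ↑K₁ z s → Wl e ↑K₂ z s → Rg z s \ (K₁ ∪ K₂) ⊆ D →
    a ≤ Pr Q D η (NET.Jn e ↑(Rg z s \ (K₁ ∪ K₂)) (NET.Vc e ↑K₁) (NET.Vc e ↑K₂))

/-- **The step of the induction.** -/
theorem step (hQ : 0 < Q) {a : ℝ} (ha1 : a ≤ 1) (hT : TAc Q a) {G : ℝ} (hG1 : 1 ≤ G)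
    {y0 y1 : ℤ} {w : ℕ} (hw : y1 - y0 = w) (hκ : ∀ v ∈ κ, v ∈ Rw y0 y1)
    (hN : NoHole c κ y0 y1) {η : Cfg} (hη : Good η) {S : ℕ} (hS2 : 200 ≤ S)
    (hd : (κ.card : ℝ) / (1 / 100 * (S : ℝ) ^ 2) ≤ (w : ℝ) / (2 * S))
    (h3 : (3 : ℝ) ≤ (w : ℝ) / (2 * S) - 3)
    (hfin : ∀ m : ℕ, (w : ℝ) / (2 * S) - 3 ≤ m → G ^ 2 * (1 / 100) ^ 4 * (1 - a) ^ m ≤
      G * ((κ.card : ℝ) / (w : ℝ) ^ 2) ^ 2)
    (ih : ∀ (ρ : Finset Pt) (z0 z1 : ℤ), z1 - z0 = S → (∀ v ∈ ρ, v ∈ Rw z0 z1) →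
      NoHole c ρ z0 z1 → ∀ ζ, Good ζ → Pr Q ρ ζ (NET.Jn c ↑ρ (rw c z0) (rw c z1)) ≤
        G * ((ρ.card : ℝ) / (S : ℝ) ^ 2) ^ 2) :
    Pr Q κ η (NET.Jn c ↑κ (rw c y0) (rw c y1)) ≤ G * ((κ.card : ℝ) / (w : ℝ) ^ 2) ^ 2 := by
  classical
  have hS : 0 < S := by omega
  obtain ⟨j0, j1, M, hj1, hj01, hM, hc0, hc1, hcM, hcard⟩ := layers κ y0 hS hd h3
  have hm01 := lay_le (S := S) (y0 := y0) hj01
  have hY0 : y0 ≤ y0 + j0 * S := by
    have : (0 : ℤ) ≤ (j0 : ℤ) * S := by positivity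
    linarith
  have hY1 : y0 + j1 * S + S ≤ y1 := by
    have h1 : (((j1 + 1) * S : ℕ) : ℤ) ≤ (w : ℤ) := by exact_mod_cast hj1
    push_cast at h1
    linarith
  set Y0 : ℤ := y0 + j0 * S with hY0d
  set m1 : ℤ := y0 + j1 * S with hm1d
  have hL0 := fun v => mem_lay (κ := κ) (Y := Y0) (S := S) (v := v)
  have hL1 := fun v => mem_lay (κ := κ) (Y := m1) (S := S) (v := v)
  -- the barriers
  have hblock : ∀ ρ ∈ comps c (lay κ Y0 S), ∀ u ∈ comps c (lay κ m1 S), ∀ j ∈ M,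
      ∃ T : Set Cfg, LocS (lay κ (y0 + j * S) S) T ∧
        (∀ ζ, Good ζ → Pr Q (lay κ (y0 + j * S) S) ζ T ≤ 1 - a) ∧
        Cr c κ ρ u Y0 (m1 + S) ⊆ T := by
    intro ρ hρ u hu j hj
    have hjj := hM j hj
    have k1 := lay_le (S := S) (y0 := y0) hjj.1
    have k2 := lay_le (S := S) (y0 := y0) hjj.2
    refine block (c := c) (κ := κ) (y0 := Y0) (y1 := m1 + S) (m0 := Y0 + S) (m1 := m1) hQ ha1 hT
      (fun v p hv hp => H575.esc_of hκ hN hv hp) (by omega) (by omega)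
      (fun v => mem_lay) k1 k2 hS2 (hcM j hj) ?_ (comp_conn hρ) ?_ (comp_conn hu)
    · rw [← coe_lay]
      exact coe_subset.2 (comps_sub hρ)
    · rw [← coe_lay]
      exact coe_subset.2 (comps_sub hu)
  choose! T hT1 hT2 hT3 using hblock
  -- the bound for a pair
  have hpair : ∀ ρ ∈ comps c (lay κ Y0 S), ∀ u ∈ comps c (lay κ m1 S),
      Pr Q κ η (({ω | ∀ j ∈ M, ω ∈ T ρ u j} ∩ NET.Jn c ↑ρ (rw c Y0) (rw c (Y0 + S))) ∩
        NET.Jn c ↑u (rw c m1) (rw c (m1 + S))) ≤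
      G * ((u.card : ℝ) / (S : ℝ) ^ 2) ^ 2 * (G * ((ρ.card : ℝ) / (S : ℝ) ^ 2) ^ 2 *
        (1 - a) ^ M.card) := by
    intro ρ hρ u hu
    have hρκ : ρ ⊆ κ := (comps_sub hρ).trans lay_sub
    have huκ : u ⊆ κ := (comps_sub hu).trans lay_sub
    have hρR : ∀ v ∈ ρ, v ∈ Rw Y0 (Y0 + S) := fun v hv => ((hL0 v).1 (comps_sub hρ hv)).2
    have huR : ∀ v ∈ u, v ∈ Rw m1 (m1 + S) := fun v hv => ((hL1 v).1 (comps_sub hu hv)).2
    have hNρ : NoHole c ρ Y0 (Y0 + S) := noHole_comp hN hY0 (by omega) hL0 hρ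
    have hNu : NoHole c u m1 (m1 + S) := noHole_comp hN (by omega) hY1 hL1 hu
    have hdρ : ∀ j ∈ M, Disjoint (lay κ (y0 + j * S) S) ρ := fun j hj =>
      disjoint_of_subset_right (comps_sub hρ) (lay_disj (hM j hj).1.ne')
    have hdu : ∀ j ∈ M, Disjoint (lay κ (y0 + j * S) S) u := fun j hj =>
      disjoint_of_subset_right (comps_sub hu) (lay_disj (hM j hj).2.ne)
    have hρu : Disjoint ρ u := disjoint_of_subset_left (comps_sub hρ)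
      (disjoint_of_subset_right (comps_sub hu) (lay_disj hj01.ne))
    have hG0 : ∀ x : ℝ, 0 ≤ G * x ^ 2 := fun x => mul_nonneg (by linarith) (sq_nonneg x)
    have hI : ∀ V : Finset Pt, (∀ j ∈ M, Disjoint (lay κ (y0 + j * S) S) V) →
        IndS V {ω : Cfg | ∀ j ∈ M, ω ∈ T ρ u j} := fun V hV ω ω' hω h j hj =>
      (hT1 ρ hρ u hu j hj).indS (hV j hj) ω ω' hω (h j hj)
    -- the layers
    have p1 : Pr Q κ η {ω | ∀ j ∈ M, ω ∈ T ρ u j} ≤ (1 - a) ^ M.card := by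
      rw [← prod_const]
      exact pr_prod hQ hη M (fun j => lay κ (y0 + j * S) S) (fun j => T ρ u j) (fun _ => 1 - a)
        (fun j _ => lay_sub) (fun i _ j _ hij => lay_disj hij) (fun j hj => hT1 ρ hρ u hu j hj)
        (fun j hj => hT2 ρ hρ u hu j hj) (fun _ _ => by linarith)
    have p2 : Pr Q κ η ({ω | ∀ j ∈ M, ω ∈ T ρ u j} ∩ NET.Jn c ↑ρ (rw c Y0) (rw c (Y0 + S))) ≤
        G * ((ρ.card : ℝ) / (S : ℝ) ^ 2) ^ 2 * (1 - a) ^ M.card :=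
      (pr_inter hQ hη hρκ (hI ρ hdρ).ind (ih ρ Y0 (Y0 + S) (by ring) hρR hNρ)).trans
        (mul_le_mul_of_nonneg_left p1 (hG0 _))
    refine (pr_inter hQ hη huκ (IndS.ind (A := {ω | ∀ j ∈ M, ω ∈ T ρ u j} ∩
      NET.Jn c ↑ρ (rw c Y0) (rw c (Y0 + S))) ?_)
      (ih u m1 (m1 + S) (by ring) huR hNu)).trans (mul_le_mul_of_nonneg_left p2 (hG0 _))
    intro ω ω' hω h
    exact ⟨hI u hdu ω ω' hω h.1, (locS_Jn (subset_refl _)).indS hρu ω ω' hω h.2⟩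
  -- the sum
  have hsum : Pr Q κ η (NET.Jn c ↑κ (rw c y0) (rw c y1)) ≤
      ∑ p ∈ comps c (lay κ Y0 S) ×ˢ comps c (lay κ m1 S),
        Pr Q κ η (({ω | ∀ j ∈ M, ω ∈ T p.1 p.2 j} ∩
          NET.Jn c ↑p.1 (rw c Y0) (rw c (Y0 + S))) ∩ NET.Jn c ↑p.2 (rw c m1) (rw c (m1 + S))) := by
    refine pr_sum hQ _ _ fun ω hω => ?_
    obtain ⟨ρ, hρ, u, hu, k1, k2, k3⟩ := cross_class hS hY0 hm01 hY1 hω
    exact ⟨(ρ, u), mem_product.2 ⟨hρ, hu⟩, ⟨fun j hj => hT3 ρ hρ u hu j hj k3, k1⟩, k2⟩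
  have ha : 0 ≤ (1 - a) ^ M.card := pow_nonneg (by linarith) _
  refine hsum.trans (le_trans ?_ (hfin M.card hcard))
  calc ∑ p ∈ comps c (lay κ Y0 S) ×ˢ comps c (lay κ m1 S),
        Pr Q κ η (({ω | ∀ j ∈ M, ω ∈ T p.1 p.2 j} ∩
          NET.Jn c ↑p.1 (rw c Y0) (rw c (Y0 + S))) ∩ NET.Jn c ↑p.2 (rw c m1) (rw c (m1 + S)))
      ≤ ∑ p ∈ comps c (lay κ Y0 S) ×ˢ comps c (lay κ m1 S),
        G * ((p.2.card : ℝ) / (S : ℝ) ^ 2) ^ 2 * (G * ((p.1.card : ℝ) / (S : ℝ) ^ 2) ^ 2 *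
          (1 - a) ^ M.card) := by
        refine sum_le_sum fun p hp => ?_
        obtain ⟨h1, h2⟩ := mem_product.1 hp
        exact hpair p.1 h1 p.2 h2
    _ = (∑ ρ ∈ comps c (lay κ Y0 S), G * ((ρ.card : ℝ) / (S : ℝ) ^ 2) ^ 2) *
        (∑ u ∈ comps c (lay κ m1 S), G * ((u.card : ℝ) / (S : ℝ) ^ 2) ^ 2) *
          (1 - a) ^ M.card := by
        rw [sum_product, sum_mul_sum, sum_mul]
        refine sum_congr rfl fun ρ _ => ?_
        rw [sum_mul]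
        refine sum_congr rfl fun u _ => ?_
        ring
    _ ≤ (G * (1 / 100) ^ 2) * (G * (1 / 100) ^ 2) * (1 - a) ^ M.card := by
        refine mul_le_mul_of_nonneg_right ?_ ha
        refine mul_le_mul (sum_comps (by linarith) hS hc0) (sum_comps (by linarith) hS hc1)
          (sum_nonneg fun _ _ => by positivity) (by positivity)
    _ = G ^ 2 * (1 / 100) ^ 4 * (1 - a) ^ M.card := by ring

/-! ### Few squares -/

/-- A crossing uses a square of every row. -/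
theorem few {y0 y1 : ℤ} {w : ℕ} (hw : y1 - y0 = w) {ω : Cfg}
    (h : ω ∈ NET.Jn c ↑κ (rw c y0) (rw c y1)) : w ≤ κ.card := by
  classical
  have key : ∀ y ∈ Finset.Ico y0 y1, y ∈ κ.image Prod.snd := by
    intro y hy
    rw [mem_Ico] at hy
    obtain ⟨s, hs, s1, hs1, t1, ht1, t, ht, k1, -, -⟩ := parts_c (c := c) (κ := ↑κ) (a := y0)
      (b := y1) (y0 := y) (m0 := y) (m1 := y) (y1 := y + 1) hy.1 le_rfl le_rfl (by omega)
      (by omega) h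
    rcases ReflTransGen.cases_head k1 with h1 | ⟨x, h1, -⟩
    · have := hs.1
      have := ht.1
      rw [h1] at *
      omega
    · have h2 := h1.2.2.2
      refine mem_image.2 ⟨_, mem_coe.1 h2.1, ?_⟩
      have h3 := h2.2
      omega
  have h1 := card_le_card key
  rw [Int.card_Ico, hw] at h1
  have h2 : ((w : ℤ)).toNat = w := Int.toNat_natCast w
  rw [h2] at h1
  exact h1.trans card_image_le

/-- **Crossing of channels in strips.** -/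
theorem ch (hQ : 0 < Q) (hT : TA Q) : CH Q := by
  obtain ⟨a, ha0, ha1, hT⟩ := hT
  obtain ⟨G, hG1, hG⟩ := arith (c := a) (ε := 1 / 100) ha0 ha1 (by norm_num) (by norm_num)
  refine ⟨G, by linarith, ?_⟩
  intro c
  have key : ∀ (w : ℕ) (κ : Finset Pt) (y0 y1 : ℤ), y1 - y0 = w → 0 < w →
      (∀ v ∈ κ, v ∈ Rw y0 y1) → NoHole c κ y0 y1 → ∀ η, Good η →
      Pr Q κ η (NET.Jn c ↑κ (rw c y0) (rw c y1)) ≤ G * ((κ.card : ℝ) / (w : ℝ) ^ 2) ^ 2 := by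
    intro w
    induction w using Nat.strong_induction_on with
    | _ w ih =>
    intro κ y0 y1 hw hw0 hκ hN η hη
    by_cases h1 : 1 ≤ G * ((κ.card : ℝ) / (w : ℝ) ^ 2) ^ 2
    · exact (Pr_le_one hQ _).trans h1
    · push Not at h1
      by_cases h2 : w ≤ κ.card
      · obtain ⟨s1, s2, s3, s4, s5⟩ := hG κ.card w hw0 h2 h1 _ rfl
        set S : ℕ := ⌊2 * (κ.card : ℝ) / (1 / 100 * w)⌋₊ + 1 with hS
        have hS200 : 200 ≤ S := by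
          have : (200 : ℝ) ≤ S := by
            refine le_trans ?_ s2
            norm_num
          exact_mod_cast this
        exact step hQ ha1 hT hG1 hw hκ hN hη hS200 s4 s3 s5 fun ρ z0 z1 hz hρ hNρ ζ hζ =>
          ih S s1 ρ z0 z1 hz (by omega) hρ hNρ ζ hζ
      · have h3 : Pr Q κ η (NET.Jn c ↑κ (rw c y0) (rw c y1)) ≤ Pr Q κ η (Set.univ : Set Cfg)ᶜ :=
          Pr_mono hQ fun ω hω => absurd (few hw hω) h2
        rw [Pr_compl hQ, pr_univ hQ, sub_self] at h3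
        refine h3.trans ?_
        positivity
  intro κ y0 y1 hy hκ hN η hη
  have hw : y1 - y0 = ((y1 - y0).toNat : ℤ) := by omega
  have := key (y1 - y0).toNat κ y0 y1 hw (by omega) hκ hN η hη
  have e := congrArg (Int.cast : ℤ → ℝ) hw
  rw [Int.cast_natCast] at e
  rw [e]
  exact this

end Vale.Agent.P167.H24
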