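import Vale.Agent.P167.H816.Wire

/-!
# P167: conditioning on edges in the random-cluster model with an arbitrary exterior relation
-/

set_option autoImplicit false
set_option linter.unusedSectionVars false

namespace Vale.Agent.P167.H24

open Finset Vale.Agent.P167.H623 Vale.Agent.P167.H816

variable {X ι : Type*} [DecidableEq ι] (a b : ι → X) {w : ι → ℝ} {q : ℝ} {D : Finset ι}

theorem con_con (r : Setoid X) (S S' : Finset ι) : con a b (con a b r S') S = con a b r (S ∪ S') := by
  rw [con, con, con, sup_assoc, conf, conf, conf, Finset.sup_union, sup_comm (Finset.sup S' _)]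

theorem con_join (r : Setoid X) (e : ι) (S : Finset ι) :
    con a b (r ⊔ join (a e) (b e)) S = con a b r (insert e S) := by
  rw [con_insert, con, con, sup_right_comm]

theorem sum_gw0 (hw : ∀ e, 0 < w e) (hq : 0 < q) (r : Setoid X) {e : ι} (F : Finset ι → ℝ) :
    ∑ S ∈ (D.erase e).powerset, gw a b w q D r S * F S =
      (∑ S ∈ (D.erase e).powerset, gw a b w q D r S) * GE a b w q (D.erase e) r F := by
  have hrec : Rec a b w q (D.erase e) r (gw a b w q D r) := by
    intro S hS e' he' heS
    exact gw_rec hq.ne' S (hS.trans (erase_subset _ _)) e' (mem_of_mem_erase he') heS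
  have h0 := gw_pos (a := a) (b := b) (D := D) (r := r) hw hq ∅
  rw [← hrec.sum_div hq h0.ne' F, mul_div_cancel₀]
  refine (sum_pos (fun S _ => gw_pos hw hq S) ⟨∅, empty_mem_powerset _⟩).ne'

theorem sum_gw1 (hw : ∀ e, 0 < w e) (hq : 0 < q) (r : Setoid X) {e : ι} (he : e ∈ D)
    (F : Finset ι → ℝ) :
    ∑ S ∈ (D.erase e).powerset, gw a b w q D r (insert e S) * F S =
      (∑ S ∈ (D.erase e).powerset, gw a b w q D r (insert e S)) *
        GE a b w q (D.erase e) (r ⊔ join (a e) (b e)) F := by
  have hrec : Rec a b w q (D.erase e) (r ⊔ join (a e) (b e))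
      (fun S => gw a b w q D r (insert e S)) := by
    intro S hS e' he' heS
    have h1 : e' ≠ e := ne_of_mem_erase he'
    have h2 := gw_rec (a := a) (b := b) (w := w) (D := D) (r := r) hq.ne' (insert e S)
      (insert_subset he (hS.trans (erase_subset _ _))) e' (mem_of_mem_erase he') (by
        rw [mem_insert, not_or]
        exact ⟨h1, heS⟩)
    rw [con_join]
    beta_reduce
    rw [Finset.insert_comm, h2]
  have h0 := gw_pos (a := a) (b := b) (D := D) (r := r) hw hq (insert e ∅)
  rw [← hrec.sum_div hq h0.ne' F, mul_div_cancel₀]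
  refine (sum_pos (fun S _ => gw_pos hw hq _) ⟨∅, empty_mem_powerset _⟩).ne'

/-- **Conditioning on one edge.** -/
theorem GE_split (hw : ∀ e, 0 < w e) (hq : 0 < q) (r : Setoid X) {e : ι} (he : e ∈ D) :
    ∃ p : ℝ, 0 ≤ p ∧ p ≤ 1 ∧ ∀ F : Finset ι → ℝ, GE a b w q D r F =
      p * GE a b w q (D.erase e) (r ⊔ join (a e) (b e)) (fun S => F (insert e S)) +
        (1 - p) * GE a b w q (D.erase e) r F := by
  set z0 := ∑ S ∈ (D.erase e).powerset, gw a b w q D r S with hz0
  set z1 := ∑ S ∈ (D.erase e).powerset, gw a b w q D r (insert e S) with hz1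
  have p0 : 0 < z0 := sum_pos (fun S _ => gw_pos hw hq S) ⟨∅, empty_mem_powerset _⟩
  have p1 : 0 < z1 := sum_pos (fun S _ => gw_pos hw hq _) ⟨∅, empty_mem_powerset _⟩
  have hsum : ∀ g : Finset ι → ℝ, ∑ S ∈ D.powerset, g S =
      ∑ S ∈ (D.erase e).powerset, g S + ∑ S ∈ (D.erase e).powerset, g (insert e S) := by
    intro g
    conv_lhs => rw [← insert_erase he]
    rw [sum_powerset_insert (notMem_erase e D)]
  refine ⟨z1 / (z0 + z1), by positivity, by rw [div_le_one (by positivity)]; linarith,
    fun F => ?_⟩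
  rw [GE, hsum, hsum, sum_gw0 a b hw hq r, sum_gw1 a b hw hq r he, ← hz0, ← hz1]
  have : z0 + z1 ≠ 0 := by positivity
  field_simp
  ring

/-- **The domain Markov property**, as a comparison. -/
theorem GE_markov (hw : ∀ e, 0 < w e) (hq : 0 < q) {E : Finset ι} :
    ∀ (n : ℕ) (D : Finset ι) (r : Setoid X) (F G : Finset ι → ℝ), (D \ E).card = n → E ⊆ D →
      (∀ S' ⊆ D \ E, GE a b w q E (con a b r S') (fun S => F (S ∪ S')) ≤
        GE a b w q E (con a b r S') (fun S => G (S ∪ S'))) →
      GE a b w q D r F ≤ GE a b w q D r G := by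
  intro n
  induction n with
  | zero =>
    intro D r F G hn hE h
    have h1 : D \ E = ∅ := card_eq_zero.1 hn
    have h2 : D = E := Subset.antisymm (sdiff_eq_empty_iff_subset.1 h1) hE
    subst h2
    have h3 := h ∅ (empty_subset _)
    simp only [con_empty, union_empty] at h3
    exact h3
  | succ n ih =>
    intro D r F G hn hE h
    obtain ⟨e, he⟩ : (D \ E).Nonempty := card_pos.1 (by omega)
    have heD : e ∈ D := (mem_sdiff.1 he).1
    have heE : e ∉ E := (mem_sdiff.1 he).2
    have hE' : E ⊆ D.erase e := fun v hv => mem_erase.2 ⟨fun h => heE (h ▸ hv), hE hv⟩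
    have hD' : (D.erase e) \ E = (D \ E).erase e := by
      ext v
      simp only [mem_sdiff, mem_erase]
      tauto
    have hn' : ((D.erase e) \ E).card = n := by
      rw [hD', card_erase_of_mem he, hn]
      rfl
    obtain ⟨p, h0, h1, hp⟩ := GE_split a b hw hq r heD
    rw [hp F, hp G]
    refine add_le_add (mul_le_mul_of_nonneg_left ?_ h0) (mul_le_mul_of_nonneg_left ?_
      (by linarith))
    · refine ih _ _ _ _ hn' hE' fun S' hS' => ?_
      have h2 := h (insert e S') (insert_subset he (hS'.trans (by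
        rw [hD']
        exact erase_subset _ _)))
      rw [con_join]
      simp only [union_insert] at h2
      exact h2
    · refine ih _ _ _ _ hn' hE' fun S' hS' => h S' (hS'.trans (by
        rw [hD']
        exact erase_subset _ _))

theorem GE_le_of_cond (hw : ∀ e, 0 < w e) (hq : 0 < q) {E : Finset ι} (hE : E ⊆ D) {r : Setoid X}
    {F G : Finset ι → ℝ}
    (h : ∀ S' ⊆ D \ E, GE a b w q E (con a b r S') (fun S => F (S ∪ S')) ≤
      GE a b w q E (con a b r S') (fun S => G (S ∪ S'))) :
    GE a b w q D r F ≤ GE a b w q D r G :=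
  GE_markov a b hw hq _ D r F G rfl hE h

theorem GE_mul_left {r : Setoid X} (c : ℝ) (F : Finset ι → ℝ) :
    GE a b w q D r (fun S => c * F S) = c * GE a b w q D r F := by
  rw [GE, GE, ← mul_div_assoc, mul_sum]
  congr 1
  exact sum_congr rfl fun S _ => by ring

end Vale.Agent.P167.H24
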