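import Vale.Agent.P167.H24.GE

/-!
# P167: positive association of void events of the cluster of a root, `q ≤ 1`

`vpa`: `P(T₁ ≁ x) P(T₂ ≁ x) ≤ P(T₁ ∪ T₂ ≁ x)` for every graph and every exterior relation.
-/

set_option autoImplicit false
set_option linter.unusedSectionVars false

namespace Vale.Agent.P167.H24

open Finset Vale.Agent.P167.H623 Vale.Agent.P167.H816

variable {X ι : Type*} [DecidableEq ι] (a b : ι → X) {w : ι → ℝ} {q : ℝ}

theorem GP_split (hw : ∀ e, 0 < w e) (hq : 0 < q) {D : Finset ι} (r : Setoid X) {e : ι}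
    (he : e ∈ D) :
    ∃ p : ℝ, 0 ≤ p ∧ p ≤ 1 ∧ ∀ A : Finset ι → Prop, GP a b w q D r A =
      p * GP a b w q (D.erase e) (r ⊔ join (a e) (b e)) (fun S => A (insert e S)) +
        (1 - p) * GP a b w q (D.erase e) r A := by
  classical
  obtain ⟨p, h0, h1, hp⟩ := GE_split a b hw hq r he
  exact ⟨p, h0, h1, fun A => by rw [GP, hp]; rfl⟩

theorem Jo_insert (r : Setoid X) (e : ι) (T : Set X) (x : X) (S : Finset ι) :
    Jo a b r T x (insert e S) ↔ Jo a b (r ⊔ join (a e) (b e)) T x S := by
  unfold Jo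
  rw [con_join]

theorem Jo_union (r : Setoid X) (T T' : Set X) (x : X) (S : Finset ι) :
    Jo a b r (T ∪ T') x S ↔ Jo a b r T x S ∨ Jo a b r T' x S := by
  constructor
  · rintro ⟨t, ht | ht, h⟩
    · exact Or.inl ⟨t, ht, h⟩
    · exact Or.inr ⟨t, ht, h⟩
  · rintro (⟨t, ht, h⟩ | ⟨t, ht, h⟩)
    · exact ⟨t, Or.inl ht, h⟩
    · exact ⟨t, Or.inr ht, h⟩

/-- If no edge is attached to the class of `x`, nothing is joined to it. -/
theorem con_far {r : Setoid X} {S : Finset ι} {x : X} (h : ∀ e ∈ S, ¬ r (a e) x ∧ ¬ r (b e) x)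
    (t : X) : con a b r S t x ↔ r t x := by
  induction S using Finset.induction_on generalizing t with
  | empty => rw [con_empty]
  | insert e S _ ih =>
    have ih' := ih fun e' he' => h e' (mem_insert_of_mem he')
    obtain ⟨h1, h2⟩ := h e (mem_insert_self e S)
    rw [con_insert_iff, ih' t, ih' (b e), ih' (a e)]
    tauto

/-- Opening an edge attached to the root: T1. -/
theorem t1_edge (hw : ∀ e, 0 < w e) (hq : 0 < q) (hq1 : q ≤ 1) (D : Finset ι) (r : Setoid X)
    (T : Set X) {x : X} {e : ι} (he : r (a e) x ∨ r (b e) x) :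
    GP a b w q D (r ⊔ join (a e) (b e)) (fun S => ¬ Jo a b (r ⊔ join (a e) (b e)) T x S) ≤
      GP a b w q D r (fun S => ¬ Jo a b r T x S) := by
  have hw0 : ∀ e, 0 ≤ w e := fun e => (hw e).le
  rw [GP_not a b D hw0 hq, GP_not a b D hw0 hq]
  have h := t1_rel a b D hw0 hq hq1 (r := r) (r' := r ⊔ join (a e) (b e)) (T := T) (x := x)
    (Y := Set.univ) (fun _ _ => trivial) (Set.subset_univ _) trivial
    (fun y _ y' _ h => (le_sup_left : r ≤ r ⊔ join (a e) (b e)) h) (fun y _ y' _ h => ?_)
  · linarith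
  · have key : ∀ z : X, (r ⊔ join (a e) (b e)) z x ↔ r z x ∨ r z (a e) ∨ r z (b e) := by
      intro z
      rw [sup_join]
      constructor
      · rintro (h | ⟨h, -⟩ | ⟨h, -⟩)
        · exact Or.inl h
        · exact Or.inr (Or.inl h)
        · exact Or.inr (Or.inr h)
      · rintro (h | h | h)
        · exact Or.inl h
        · rcases he with h' | h'
          · exact Or.inl (r.trans h h')
          · exact Or.inr (Or.inl ⟨h, h'⟩)
        · rcases he with h' | h'
          · exact Or.inr (Or.inr ⟨h, h'⟩)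
          · exact Or.inl (r.trans h h')
    rw [key, key]
    rw [sup_join] at h
    rcases h with h | ⟨h, h'⟩ | ⟨h, h'⟩
    · exact Or.inl h
    · exact Or.inr ⟨Or.inr (Or.inl h), Or.inr (Or.inr (r.symm h'))⟩
    · exact Or.inr ⟨Or.inr (Or.inr h), Or.inr (Or.inl (r.symm h'))⟩

/-- **Void events of the cluster of the root are positively correlated.** -/
theorem vpa (hw : ∀ e, 0 < w e) (hq : 0 < q) (hq1 : q ≤ 1) (T T' : Set X) (x : X) :
    ∀ (n : ℕ) (D : Finset ι) (r : Setoid X), D.card = n →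
    GP a b w q D r (fun S => ¬ Jo a b r T x S) * GP a b w q D r (fun S => ¬ Jo a b r T' x S) ≤
      GP a b w q D r (fun S => ¬ Jo a b r T x S ∧ ¬ Jo a b r T' x S) := by
  have hw0 : ∀ e, 0 ≤ w e := fun e => (hw e).le
  intro n
  induction n with
  | zero =>
    intro D r hn
    rw [card_eq_zero] at hn
    subst hn
    by_cases h1 : ∃ t ∈ T, r t x
    · rw [GP_false a b ∅ (A := fun S => ¬ Jo a b r T x S) fun S _ hS => ?_, zero_mul]
      · exact GP_nonneg a b ∅ hw0 hq _
      · obtain ⟨t, ht, h⟩ := h1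
        exact hS ⟨t, ht, le_con a b r S h⟩
    · by_cases h2 : ∃ t ∈ T', r t x
      · rw [GP_false a b ∅ (A := fun S => ¬ Jo a b r T' x S) fun S _ hS => ?_, mul_zero]
        · exact GP_nonneg a b ∅ hw0 hq _
        · obtain ⟨t, ht, h⟩ := h2
          exact hS ⟨t, ht, le_con a b r S h⟩
      · rw [GP_true a b ∅ (A := fun S => ¬ Jo a b r T x S ∧ ¬ Jo a b r T' x S) hw0 hq]
        · have e1 : GP a b w q ∅ r (fun S => ¬ Jo a b r T x S) ≤ 1 := by
            rw [← GP_true a b ∅ (r := r) (A := fun _ => True) hw0 hq fun _ _ => trivial]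
            exact GP_mono a b ∅ hw0 hq fun _ _ _ => trivial
          have e2 : GP a b w q ∅ r (fun S => ¬ Jo a b r T' x S) ≤ 1 := by
            rw [← GP_true a b ∅ (r := r) (A := fun _ => True) hw0 hq fun _ _ => trivial]
            exact GP_mono a b ∅ hw0 hq fun _ _ _ => trivial
          exact mul_le_one₀ e1 (GP_nonneg a b ∅ hw0 hq _) e2
        · intro S hS
          have hS' : S = ∅ := subset_empty.1 hS
          subst hS'
          push Not at h1 h2
          refine ⟨?_, ?_⟩
          · rintro ⟨t, ht, h⟩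
            rw [con_empty] at h
            exact h1 t ht h
          · rintro ⟨t, ht, h⟩
            rw [con_empty] at h
            exact h2 t ht h
  | succ n ih =>
    intro D r hn
    by_cases he : ∃ e ∈ D, r (a e) x ∨ r (b e) x
    · obtain ⟨e, heD, he⟩ := he
      have hcard : (D.erase e).card = n := by
        rw [card_erase_of_mem heD, hn]
        rfl
      obtain ⟨p, h0, h1, hp⟩ := GP_split a b hw hq r heD
      rw [hp, hp (fun S => ¬ Jo a b r T' x S), hp (fun S => ¬ Jo a b r T x S ∧ ¬ Jo a b r T' x S)]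
      simp only [Jo_insert]
      have i1 := ih (D.erase e) (r ⊔ join (a e) (b e)) hcard
      have i0 := ih (D.erase e) r hcard
      have m1 := t1_edge a b hw hq hq1 (D.erase e) r T he
      have m2 := t1_edge a b hw hq hq1 (D.erase e) r T' he
      set A1 := GP a b w q (D.erase e) (r ⊔ join (a e) (b e))
        (fun S => ¬ Jo a b (r ⊔ join (a e) (b e)) T x S)
      set B1 := GP a b w q (D.erase e) (r ⊔ join (a e) (b e))
        (fun S => ¬ Jo a b (r ⊔ join (a e) (b e)) T' x S)
      set A0 := GP a b w q (D.erase e) r (fun S => ¬ Jo a b r T x S)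
      set B0 := GP a b w q (D.erase e) r (fun S => ¬ Jo a b r T' x S)
      set C1 := GP a b w q (D.erase e) (r ⊔ join (a e) (b e))
        (fun S => ¬ Jo a b (r ⊔ join (a e) (b e)) T x S ∧
          ¬ Jo a b (r ⊔ join (a e) (b e)) T' x S)
      set C0 := GP a b w q (D.erase e) r (fun S => ¬ Jo a b r T x S ∧ ¬ Jo a b r T' x S)
      have k1 : p * (A1 * B1) ≤ p * C1 := mul_le_mul_of_nonneg_left i1 h0
      have k0 : (1 - p) * (A0 * B0) ≤ (1 - p) * C0 :=
        mul_le_mul_of_nonneg_left i0 (by linarith)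
      have k2 : 0 ≤ p * (1 - p) * ((A0 - A1) * (B0 - B1)) :=
        mul_nonneg (mul_nonneg h0 (by linarith)) (mul_nonneg (by linarith) (by linarith))
      have e3 : p * (A1 * B1) + (1 - p) * (A0 * B0) - (p * A1 + (1 - p) * A0) *
          (p * B1 + (1 - p) * B0) = p * (1 - p) * ((A0 - A1) * (B0 - B1)) := by ring
      linarith
    · push Not at he
      have hfar : ∀ S ⊆ D, ∀ t, con a b r S t x ↔ r t x := fun S hS t =>
        con_far a b (fun e heS => he e (hS heS)) t
      by_cases h1 : ∃ t ∈ T, r t x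
      · rw [GP_false a b D (A := fun S => ¬ Jo a b r T x S) fun S _ hS => ?_, zero_mul]
        · exact GP_nonneg a b D hw0 hq _
        · obtain ⟨t, ht, h⟩ := h1
          exact hS ⟨t, ht, le_con a b r S h⟩
      · by_cases h2 : ∃ t ∈ T', r t x
        · rw [GP_false a b D (A := fun S => ¬ Jo a b r T' x S) fun S _ hS => ?_, mul_zero]
          · exact GP_nonneg a b D hw0 hq _
          · obtain ⟨t, ht, h⟩ := h2
            exact hS ⟨t, ht, le_con a b r S h⟩
        · rw [GP_true a b D (A := fun S => ¬ Jo a b r T x S ∧ ¬ Jo a b r T' x S) hw0 hq]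
          · have e1 : ∀ U : Set X, GP a b w q D r (fun S => ¬ Jo a b r U x S) ≤ 1 := fun U => by
              rw [← GP_true a b D (r := r) (A := fun _ => True) hw0 hq fun _ _ => trivial]
              exact GP_mono a b D hw0 hq fun _ _ _ => trivial
            exact mul_le_one₀ (e1 T) (GP_nonneg a b D hw0 hq _) (e1 T')
          · intro S hS
            push Not at h1 h2
            refine ⟨?_, ?_⟩
            · rintro ⟨t, ht, h⟩
              exact h1 t ht ((hfar S hS t).1 h)
            · rintro ⟨t, ht, h⟩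
              exact h2 t ht ((hfar S hS t).1 h)

/-- The same for finitely many sets. -/
theorem vpa_prod (hw : ∀ e, 0 < w e) (hq : 0 < q) (hq1 : q ≤ 1) {κ : Type*} (I : Finset κ)
    (T : κ → Set X) (x : X) (D : Finset ι) (r : Setoid X) {c : ℝ} (hc : 0 ≤ c)
    (h : ∀ i ∈ I, c ≤ GP a b w q D r (fun S => ¬ Jo a b r (T i) x S)) :
    c ^ I.card ≤ GP a b w q D r (fun S => ∀ i ∈ I, ¬ Jo a b r (T i) x S) := by
  classical
  have hw0 : ∀ e, 0 ≤ w e := fun e => (hw e).le
  induction I using Finset.induction_on with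
  | empty =>
    rw [GP_true a b D hw0 hq fun S _ i hi => absurd hi (notMem_empty i), card_empty, pow_zero]
  | insert i I hi ih =>
    have ih' := ih fun j hj => h j (mem_insert_of_mem hj)
    have h1 := vpa a b hw hq hq1 (T i) (⋃ j ∈ I, T j) x _ D r rfl
    have h2 := h i (mem_insert_self i I)
    have e1 : ∀ S, ¬ Jo a b r (⋃ j ∈ I, T j) x S ↔ ∀ j ∈ I, ¬ Jo a b r (T j) x S := by
      intro S
      constructor
      · rintro h j hj ⟨t, ht, k⟩
        exact h ⟨t, Set.mem_biUnion hj ht, k⟩
      · rintro h ⟨t, ht, k⟩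
        obtain ⟨j, hj, ht⟩ := Set.mem_iUnion₂.1 ht
        exact h j hj ⟨t, ht, k⟩
    simp only [e1] at h1
    rw [card_insert_of_notMem hi, pow_succ, mul_comm]
    refine (mul_le_mul h2 ih' (pow_nonneg hc _) (hc.trans h2)).trans (h1.trans (le_of_eq ?_))
    refine GP_congr a b D hq (fun _ _ _ _ => Iff.rfl) fun S _ => ?_
    rw [forall_mem_insert]

end Vale.Agent.P167.H24
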