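import Vale.Agent.P167.H24.BilR
import Vale.Agent.P167.H635.Box
import Vale.Agent.P167.H199.QRatS

/-!
# P167: ratio mixing for sets of arbitrary shape, `q ≤ 1`

All boundary conditions of `A` are compared with the exterior relation in which all the corners of
the squares outside of `A` are identified (`A` may have holes).
-/

set_option autoImplicit false
set_option linter.unusedSectionVars false

namespace Vale.Agent.P167.H24

open Finset Vale.Agent.P167.H623 Vale.Agent.P167.H816 Vale.Agent.P167.FK Vale.Agent.P167.FKA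
open Vale.Agent.P145.FB (PStep PConn)
open Vale.Agent.P167.H199 (QBlk Rsc)
open Vale.Agent.P167.H519 (pa_cor pb_cor cf_in)
open Vale.Agent.P167.H562.GL (far_of_corx)

variable {Q c : ℝ} {Λ r : ℤ} {A B D I : Finset (ℤ × ℤ)} {ξ : Cfg}

/-- The even corners of the squares outside of `A`. -/
def Wo (A : Finset (ℤ × ℤ)) : Set (ℤ × ℤ) := {s | Even (s.1 + s.2) ∧ ∃ v, v ∉ A ∧ Cor v s}

theorem pa_Wo {v : ℤ × ℤ} (h : v ∉ A) : pa v ∈ Wo A := ⟨even_pa v, v, h, pa_cor v⟩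

theorem pb_Wo {v : ℤ × ℤ} (h : v ∉ A) : pb v ∈ Wo A := ⟨even_pb v, v, h, pb_cor v⟩

theorem Wo_anti (h : B ⊆ A) : Wo A ⊆ Wo B := fun _ ⟨h1, v, h2, h3⟩ =>
  ⟨h1, v, fun h' => h2 (h h'), h3⟩

theorem PCs_le (ξ : Cfg) : PCs (cf A ξ ∅) ≤ wir (Wo A) := by
  have key : ∀ s t : ℤ × ℤ, Even (s.1 + s.2) → PC (cf A ξ ∅) s t → s ≠ t → s ∈ Wo A := by
    intro s t hs h hne
    obtain ⟨v, hv, hsv⟩ := first_step hs h hne
    have hvA : v ∉ A := fun h' => by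
      rw [cf_in h'] at hv
      simp at hv
    rcases hsv with rfl | rfl
    · exact pa_Wo hvA
    · exact pb_Wo hvA
  rintro s t (h | ⟨hs, h⟩)
  · exact Or.inl h
  · by_cases hne : s = t
    · exact Or.inl hne
    · exact Or.inr ⟨key s t hs h hne, key t s (PC_even h hs) (PC_symm h) (Ne.symm hne)⟩

theorem PCs_sup (ξ : Cfg) : PCs (cf A ξ ∅) ⊔ wir (Wo A) = wir (Wo A) :=
  sup_eq_right.2 (PCs_le ξ)

theorem conf_le_wir {S : Finset (ℤ × ℤ)} (h : Disjoint S A) : conf pa pb S ≤ wir (Wo A) := by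
  rw [conf]
  refine Finset.sup_le fun v hv => join_le_iff'.2 (Or.inr ⟨pa_Wo ?_, pb_Wo ?_⟩)
  · exact Finset.disjoint_left.1 h hv
  · exact Finset.disjoint_left.1 h hv

theorem wir_mono {X : Type*} {W W' : Set X} (h : W ⊆ W') : wir W ≤ wir W' := by
  rintro s t (h' | ⟨h1, h2⟩)
  · exact Or.inl h'
  · exact Or.inr ⟨h h1, h h2⟩

/-- The expectation with all the corners outside of `A` identified. -/
noncomputable def Eu (Q : ℝ) (A : Finset (ℤ × ℤ)) (F : Cfg → ℝ) : ℝ :=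
  GE pa pb (fun _ => Q) (Q ^ 2) A (wir (Wo A)) (fun S => F (cf A eta1 S))

/-- No connection between the corners of `V` and the outside of `A`. -/
def SpW (A V : Finset (ℤ × ℤ)) (S : Finset (ℤ × ℤ)) : Prop :=
  Sep pa pb (wir (Wo A)) (ends pa pb V : Set (ℤ × ℤ)) (Wo A) S

theorem sep_eq (ξ : Cfg) (T : Set (ℤ × ℤ)) (S : Finset (ℤ × ℤ)) :
    Sep pa pb (PCs (cf A ξ ∅)) T (Wo A) S ↔ Sep pa pb (wir (Wo A)) T (Wo A) S := by
  rw [← sep_wir, PCs_sup]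

theorem loc_cf {V : Finset (ℤ × ℤ)} {F : Cfg → ℝ} (hF : Loc V F) (hVA : V ⊆ A) (ξ : Cfg)
    (S : Finset (ℤ × ℤ)) : F (cf A ξ S) = F (cf A eta1 (S ∩ V)) := by
  refine hF _ _ fun v hv => ?_
  rw [cf_in (hVA hv), cf_in (hVA hv)]
  congr 1
  rw [mem_inter, eq_iff_iff]
  tauto

open Classical in
/-- **From the identified outside to any boundary condition.** -/
theorem up_u (hQ : 0 < Q) (hQ1 : Q ≤ 1) {V : Finset (ℤ × ℤ)} (hVA : V ⊆ A) (hξ : Good ξ)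
    {F : Cfg → ℝ} (hF0 : ∀ ω, 0 ≤ F ω) (hF : Loc V F) :
    GE pa pb (fun _ => Q) (Q ^ 2) A (wir (Wo A))
      (fun S => F (cf A eta1 S) * (if SpW A V S then 1 else 0)) ≤ Ex Q A ξ F := by
  have h := bil_rel pa pb (w := fun _ => Q) (fun _ => hQ) (pow_pos hQ 2)
    (pow_le_one₀ hQ.le hQ1) A (PCs (cf A ξ ∅)) (Wo A) hVA (F := fun S => F (cf A eta1 S))
    (G := fun _ => 1) (fun _ => hF0 _) (fun _ => zero_le_one)
  rw [GE_const (fun _ => hQ.le) (pow_pos hQ 2), GE_const (fun _ => hQ.le) (pow_pos hQ 2), mul_one,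
    mul_one, PCs_sup] at h
  simp only [sep_eq] at h
  rw [Ex_eq_GE hQ hξ]
  refine le_trans (le_of_eq ?_) (h.trans (le_of_eq ?_))
  · refine GE_congr (pow_pos hQ 2) (fun _ _ _ _ => Iff.rfl) fun S _ => ?_
    rw [loc_cf hF hVA eta1 S]
    rfl
  · refine GE_congr (pow_pos hQ 2) (fun _ _ _ _ => Iff.rfl) fun S _ => ?_
    rw [loc_cf hF hVA ξ S]

open Classical in
/-- **From any boundary condition to the identified outside.** -/
theorem dn_u (hQ : 0 < Q) (hQ1 : Q ≤ 1) {V : Finset (ℤ × ℤ)} (hVA : V ⊆ A) (hξ : Good ξ)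
    {F : Cfg → ℝ} (hF0 : ∀ ω, 0 ≤ F ω) (hF : Loc V F) :
    GP pa pb (fun _ => Q) (Q ^ 2) A (wir (Wo A)) (SpW A V) * Ex Q A ξ F ≤ Eu Q A F := by
  have h := bil_rel pa pb (w := fun _ => Q) (fun _ => hQ) (pow_pos hQ 2)
    (pow_le_one₀ hQ.le hQ1) A (PCs (cf A ξ ∅)) (Wo A) hVA (F := fun _ => 1)
    (G := fun S => F (cf A eta1 S)) (fun _ => zero_le_one) (fun _ => hF0 _)
  rw [GE_const (fun _ => hQ.le) (pow_pos hQ 2), one_mul, PCs_sup] at h
  simp only [sep_eq, one_mul] at h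
  rw [Ex_eq_GE hQ hξ, GP, Eu]
  refine le_trans (le_of_eq ?_) (h.trans (le_of_eq ?_))
  · congr 1
    refine GE_congr (pow_pos hQ 2) (fun _ _ _ _ => Iff.rfl) fun S _ => ?_
    rw [loc_cf hF hVA ξ S]
  · refine GE_congr (pow_pos hQ 2) (fun _ _ _ _ => Iff.rfl) fun S _ => ?_
    rw [loc_cf hF hVA eta1 S]

/-- The wired outside of a box. -/
theorem PCs_box (x : ℤ × ℤ) (R : ℤ) : PCs (cf (Bq x R) eta1 ∅) = wir (Wo (Bq x R)) := by
  refine le_antisymm (PCs_le _) ?_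
  rintro s t (h | ⟨⟨hs, v, hv, hvs⟩, ⟨ht, v', hv', hvt⟩⟩)
  · exact Or.inl h
  · refine Or.inr ⟨hs, ?_⟩
    have h := (H635.wire_box (A := Bq x R) (ξ := H635.wir x R) subset_rfl
      fun v h h' => absurd h h').con s ⟨hs, far_of_corx hv hvs⟩ t ⟨ht, far_of_corx hv' hvt⟩
    refine PC_mono (fun u hu => ?_) h
    by_cases hu' : u ∈ Bq x R
    · rw [cf_in hu'] at hu ⊢
      exact hu
    · rw [cf_out hu']
      rfl

/-- The even sites of a box. -/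
def Tb (x : ℤ × ℤ) (r : ℤ) : Set (ℤ × ℤ) := {w | Even (w.1 + w.2) ∧ nm (w - x) ≤ r}

/-- The arm in a box, `Q ≤ 1`, for any larger domain and any identification outside of the box. -/
theorem arm_u (hQ : 0 < Q) (hQ1 : Q ≤ 1) (hR : Rsc Q Λ c) (hr : 1 ≤ r) {x x0 : ℤ × ℤ}
    {D S' : Finset (ℤ × ℤ)} (hD : Bq x (Λ * r) ⊆ D) {W : Set (ℤ × ℤ)} (hx0 : x0 ∈ W)
    (hW : W ⊆ Wo (Bq x (Λ * r))) (hS' : Disjoint S' (Bq x (Λ * r))) :
    c ≤ GP pa pb (fun _ => Q) (Q ^ 2) D (con pa pb (wir W) S')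
      (fun S => ¬ Jo pa pb (con pa pb (wir W) S') (Tb x r) x0 S) := by
  set X := Bq x (Λ * r) with hX
  have hq : (0 : ℝ) < Q ^ 2 := pow_pos hQ 2
  have hq1 : Q ^ 2 ≤ 1 := pow_le_one₀ hQ.le hQ1
  set r1 := con pa pb (wir W) S' with hr1
  have hle : r1 ⊔ wir (Wo X) = wir (Wo X) :=
    sup_eq_right.2 (sup_le (wir_mono hW) (conf_le_wir hS'))
  have h1 := t1_root pa pb D (w := fun _ => Q) (fun _ => hQ.le) hq hq1 r1 (Tb x r) (x := x0)
    (W := Wo X) (hW hx0)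
  rw [hle] at h1
  rw [GP_not pa pb D (fun _ => hQ.le) hq]
  suffices h2 : GP pa pb (fun _ => Q) (Q ^ 2) D (wir (Wo X)) (Jo pa pb (wir (Wo X)) (Tb x r) x0) ≤
      1 - c by linarith
  -- the edges outside of the box play no role
  have h3 : GP pa pb (fun _ => Q) (Q ^ 2) X (wir (Wo X)) (Jo pa pb (wir (Wo X)) (Tb x r) x0) ≤
      1 - c := by
    have hev : ∀ t ∈ Tb x r, Even (t.1 + t.2) := fun t ht => ht.1
    rw [← PCs_box, ← Pr_PJ hQ f_good.2.2 X hev]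
    refine le_trans ?_ (hR.2.2.2 x r hr)
    refine Ex_mono hQ fun S _ => ?_
    refine Set.indicator_le_indicator_of_subset ?_ (fun _ => zero_le_one) _
    rintro ω ⟨t, ht, h⟩
    show ArmPx x r (Λ * r) ω
    rw [armPx_iff (by have := hR.1; nlinarith)]
    obtain ⟨-, v, hv, hvx⟩ := hW hx0
    exact ⟨t, x0, ht.1, ht.2, far_of_corx hv hvx, h⟩
  classical
  rw [GP, ← GE_const (a := pa) (b := pb) (w := fun _ => Q) (D := D) (r := wir (Wo X))
    (fun _ => hQ.le) hq (1 - c)]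
  refine GE_le_of_cond pa pb (fun _ => hQ) hq hD fun S1 hS1 => ?_
  have hd1 : Disjoint S1 X := Finset.disjoint_of_subset_left hS1 Finset.sdiff_disjoint
  have h4 : con pa pb (wir (Wo X)) S1 = wir (Wo X) :=
    sup_eq_left.2 (conf_le_wir hd1)
  rw [h4, GE_const (fun _ => hQ.le) hq]
  refine le_trans (le_of_eq ?_) h3
  rw [GP]
  refine GE_congr hq (fun _ _ _ _ => Iff.rfl) fun S _ => ?_
  have h5 : con pa pb (wir (Wo X)) (S ∪ S1) = con pa pb (wir (Wo X)) S := by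
    rw [← con_con, h4]
  unfold Jo
  rw [h5]

theorem con_bot_iff {S : Finset (ℤ × ℤ)} (hS : S ⊆ A) {s t : ℤ × ℤ} (hs : Even (s.1 + s.2)) :
    con pa pb ⊥ S s t ↔ PC (cf A eta0 S) s t := by
  rw [PC_cf hS hs]
  have : PCs (cf A eta0 ∅) = ⊥ := by
    refine le_antisymm ?_ bot_le
    rintro s t (h | ⟨hs, h⟩)
    · exact h
    · by_contra hne
      obtain ⟨v, hv, -⟩ := first_step hs h hne
      by_cases hvA : v ∈ A
      · rw [cf_in hvA] at hv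
        simp at hv
      · rw [cf_out hvA] at hv
        simp [eta0] at hv
  rw [this]

/-- The shell blocks the connections. -/
theorem spw_of (hb : QBlk Λ B A I r) {x0 : ℤ × ℤ} (hx0 : x0 ∈ Wo A) {S : Finset (ℤ × ℤ)}
    (hS : S ⊆ A) (h : ∀ x ∈ I, ¬ Jo pa pb (wir (Wo A)) (Tb x r) x0 S) : SpW A B S := by
  intro t ht y hy hc
  have hev : Even (t.1 + t.2) := by
    obtain ⟨e, -, rfl | rfl⟩ := (mem_ends pa pb B).1 ht
    · exact even_pa e
    · exact even_pb e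
  have hbot : con pa pb (wir (Wo A)) S = con pa pb ⊥ S ⊔ wir (Wo A) := by
    rw [← con_sup_wir, bot_sup_eq]
  have h1 : ∃ u ∈ Wo A, con pa pb ⊥ S t u := by
    rw [hbot] at hc
    rcases (sup_wir_iff _ _ _ _).1 hc with h | ⟨⟨u, hu, h⟩, -⟩
    · exact ⟨y, hy, h⟩
    · exact ⟨u, hu, h⟩
  obtain ⟨u, hu, htu⟩ := h1
  have h2 := (con_bot_iff hS hev).1 htu
  obtain ⟨e, he, het⟩ := (mem_ends pa pb B).1 ht
  obtain ⟨hue, v, hv, hvu⟩ := hu
  obtain ⟨x, hx, z, hz, hz1, hz2⟩ := hb.thr _ t u ⟨e, he, by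
    rcases het with rfl | rfl
    · exact pa_cor e
    · exact pb_cor e⟩ ⟨v, hv, hvu⟩ h2
  have hze : Even (z.1 + z.2) := PC_even hz1 hev
  refine h x hx ⟨z, ⟨hze, hz⟩, ?_⟩
  have h3 : con pa pb ⊥ S z u := (con_bot_iff hS hze).2 hz2
  rw [hbot]
  exact (sup_wir_iff _ _ _ _).2 (Or.inr ⟨⟨u, ⟨hue, v, hv, hvu⟩, h3⟩, x0, hx0, Setoid.refl' _ _⟩)

theorem Wo_nonempty (A : Finset (ℤ × ℤ)) : (Wo A).Nonempty := by
  obtain ⟨v, hv⟩ := Infinite.exists_notMem_finset A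
  exact ⟨_, pa_Wo hv⟩

open Classical in
/-- **The conditional probability of no connection through the shell.** -/
theorem spw_ge (hQ : 0 < Q) (hQ1 : Q ≤ 1) (hR : Rsc Q Λ c) (hb : QBlk Λ B A I r)
    {F : Cfg → ℝ} (hF0 : ∀ ω, 0 ≤ F ω) (hF : Loc B F) :
    c ^ I.card * Eu Q A F ≤ GE pa pb (fun _ => Q) (Q ^ 2) A (wir (Wo A))
      (fun S => F (cf A eta1 S) * (if SpW A B S then 1 else 0)) := by
  have hq : (0 : ℝ) < Q ^ 2 := pow_pos hQ 2
  have hq1 : Q ^ 2 ≤ 1 := pow_le_one₀ hQ.le hQ1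
  obtain ⟨x0, hx0⟩ := Wo_nonempty A
  rw [Eu, ← GE_mul_left]
  refine GE_le_of_cond pa pb (fun _ => hQ) hq (E := A \ B) sdiff_subset fun S' hS' => ?_
  have hS'B : S' ⊆ B := fun v hv => by
    have h1 := mem_sdiff.1 (hS' hv)
    by_contra h2
    exact h1.2 (mem_sdiff.2 ⟨h1.1, h2⟩)
  have e1 : ∀ S ⊆ A \ B, F (cf A eta1 (S ∪ S')) = F (cf A eta1 S') := by
    intro S hS
    rw [loc_cf hF hb.BA eta1 (S ∪ S'), loc_cf hF hb.BA eta1 S']
    congr 2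
    ext v
    simp only [mem_inter, mem_union]
    constructor
    · rintro ⟨h1 | h1, h2⟩
      · exact absurd h2 (mem_sdiff.1 (hS h1)).2
      · exact ⟨h1, h2⟩
    · exact fun h => ⟨Or.inr h.1, h.2⟩
  set f := F (cf A eta1 S') with hf
  have h1 : GE pa pb (fun _ => Q) (Q ^ 2) (A \ B) (con pa pb (wir (Wo A)) S')
      (fun S => c ^ I.card * F (cf A eta1 (S ∪ S'))) = f * c ^ I.card := by
    rw [← GE_const (a := pa) (b := pb) (w := fun _ => Q) (D := A \ B)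
      (r := con pa pb (wir (Wo A)) S') (fun _ => hQ.le) hq (f * c ^ I.card)]
    refine GE_congr hq (fun _ _ _ _ => Iff.rfl) fun S hS => ?_
    rw [e1 S hS, mul_comm]
  have h2 : GE pa pb (fun _ => Q) (Q ^ 2) (A \ B) (con pa pb (wir (Wo A)) S')
      (fun S => F (cf A eta1 (S ∪ S')) * (if SpW A B (S ∪ S') then 1 else 0)) =
      f * GP pa pb (fun _ => Q) (Q ^ 2) (A \ B) (con pa pb (wir (Wo A)) S')
        (fun S => SpW A B (S ∪ S')) := by
    rw [GP, ← GE_mul_left]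
    refine GE_congr hq (fun _ _ _ _ => Iff.rfl) fun S hS => ?_
    rw [e1 S hS]
  rw [h1, h2]
  refine mul_le_mul_of_nonneg_left ?_ (hF0 _)
  have h3 : ∀ x ∈ I, c ≤ GP pa pb (fun _ => Q) (Q ^ 2) (A \ B) (con pa pb (wir (Wo A)) S')
      (fun S => ¬ Jo pa pb (con pa pb (wir (Wo A)) S') (Tb x r) x0 S) := fun x hx => by
    have hXD := hb.sub x hx
    refine arm_u hQ hQ1 hR hb.one hXD hx0 (Wo_anti (hXD.trans sdiff_subset)) ?_
    exact Finset.disjoint_left.2 fun v hv hv' => (mem_sdiff.1 (hXD hv')).2 (hS'B hv)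
  refine (vpa_prod pa pb (fun _ => hQ) hq hq1 I (fun x => Tb x r) x0 (A \ B)
    (con pa pb (wir (Wo A)) S') hR.2.1.le h3).trans ?_
  refine GP_mono pa pb (A \ B) (fun _ => hQ.le) hq fun S hS h => ?_
  refine spw_of hb hx0 (union_subset (hS.trans sdiff_subset) (hS'B.trans hb.BA)) fun x hx hJ => ?_
  refine h x hx ?_
  obtain ⟨t, ht, h'⟩ := hJ
  refine ⟨t, ht, ?_⟩
  rw [con_con]
  exact h'

/-- **Ratio mixing**: any two boundary conditions. -/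
theorem qblk_all (hQ : 0 < Q) (hQ1 : Q ≤ 1) (hR : Rsc Q Λ c) (hb : QBlk Λ B A I r) {F : Cfg → ℝ}
    (hF0 : ∀ ω, 0 ≤ F ω) (hF : Loc B F) {ξ ξ' : Cfg} (hξ : Good ξ) (hξ' : Good ξ') :
    (c ^ I.card) ^ 2 * Ex Q A ξ F ≤ Ex Q A ξ' F := by
  classical
  have hc : 0 ≤ c ^ I.card := pow_nonneg hR.2.1.le _
  have h1 := (spw_ge hQ hQ1 hR hb hF0 hF).trans (up_u hQ hQ1 hb.BA hξ' hF0 hF)
  have h2 := dn_u hQ hQ1 hb.BA hξ hF0 hF
  have h3 := spw_ge hQ hQ1 hR hb (F := fun _ => 1) (fun _ => zero_le_one) (fun _ _ _ => rfl)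
  rw [Eu, GE_const (fun _ => hQ.le) (pow_pos hQ 2), mul_one] at h3
  simp only [one_mul] at h3
  have h4 : c ^ I.card ≤ GP pa pb (fun _ => Q) (Q ^ 2) A (wir (Wo A)) (SpW A B) := h3
  have h5 : 0 ≤ Ex Q A ξ F := Ex_nonneg hQ fun _ _ => hF0 _
  have h6 := mul_le_mul_of_nonneg_right h4 h5
  nlinarith

end Vale.Agent.P167.H24
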